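import Crest.Agent.R55.Defs

/-!
Row 55, part B: from the spread theorem and the Park–Pham theorem to the statement on `G(n,p)`.
-/

set_option autoImplicit false
set_option linter.unusedSectionVars false

namespace Crest.Agent.R55

open Finset Crest.Agent.R43 Crest.CombinatoricsR.RandomGraph
open scoped Pointwise

namespace BR

/-- Relabelling of the vertices acts on the coin positions. -/
@[reducible] def act (n : ℕ) : MulAction (Equiv.Perm (Fin n)) (EdgeSlot n) where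
  smul σ e := ⟨e.1.map σ, by rw [Sym2.isDiag_map σ.injective]; exact e.2⟩
  one_smul e := Subtype.ext (by
    change e.1.map (1 : Equiv.Perm (Fin n)) = e.1
    simp)
  mul_smul σ τ e := Subtype.ext (by
    change e.1.map (σ * τ : Equiv.Perm (Fin n)) = (e.1.map τ).map σ
    simp [Sym2.map_map])

attribute [local instance] act

variable {n : ℕ}

lemma smul_val (σ : Equiv.Perm (Fin n)) (e : EdgeSlot n) : (σ • e).1 = e.1.map σ := rfl

lemma adj_iff (ω : EdgeSlot n → Bool) (a b : Fin n) :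
    (graphOf ω).Adj a b ↔ ∃ h : ¬ (s(a, b)).IsDiag, ω ⟨s(a, b), h⟩ = true := by
  simp only [graphOf, SimpleGraph.fromEdgeSet_adj, Set.mem_ofPred_eq]
  constructor
  · exact fun h => h.1
  · rintro ⟨h, h2⟩
    exact ⟨⟨h, h2⟩, fun hab => h (Sym2.mk_isDiag_iff.2 hab)⟩

variable {W : Type} (H : SimpleGraph W) (ψ : W ↪ Fin n)

open Classical in
/-- The image of the edge set of `H`. -/
noncomputable def hat : Finset (EdgeSlot n) :=
  univ.filter fun e => ∃ v w, H.Adj v w ∧ e.1 = s(ψ v, ψ w)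

lemma mem_hat {e : EdgeSlot n} : e ∈ hat H ψ ↔ ∃ v w, H.Adj v w ∧ e.1 = s(ψ v, ψ w) := by
  simp [hat]

lemma mk_mem_hat {v w : W} (h : H.Adj v w) :
    ∃ h' : ¬ (s(ψ v, ψ w)).IsDiag, (⟨s(ψ v, ψ w), h'⟩ : EdgeSlot n) ∈ hat H ψ :=
  ⟨fun h' => h.ne (ψ.injective (Sym2.mk_isDiag_iff.1 h')), (mem_hat H ψ).2 ⟨v, w, h, rfl⟩⟩

lemma card_hat [Fintype W] [DecidableEq W] [DecidableRel H.Adj] :
    (hat H ψ).card ≤ H.edgeFinset.card := by
  refine le_trans ?_ (card_image_le (f := Sym2.map ψ) (s := H.edgeFinset))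
  refine card_le_card_of_injOn (fun e => e.1) (fun e he => ?_) fun e _ e' _ h => Subtype.ext h
  obtain ⟨v, w, h, he⟩ := (mem_hat H ψ).1 he
  exact mem_coe.2 (mem_image.2 ⟨s(v, w), by simpa using h, by simp [he]⟩)

/-- The subgraph of `H` spanned by the edges mapped into `T`. -/
def sub (T : Finset (EdgeSlot n)) : H.Subgraph where
  verts := {v | ∃ w, H.Adj v w ∧ ∃ e ∈ T, e.1 = s(ψ v, ψ w)}
  Adj v w := H.Adj v w ∧ ∃ e ∈ T, e.1 = s(ψ v, ψ w)
  adj_sub h := h.1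
  edge_vert h := ⟨_, h⟩
  symm := ⟨fun v w ⟨h, e, he, h'⟩ => ⟨h.symm, e, he, h'.trans Sym2.eq_swap⟩⟩

open Classical in
/-- The edge set of a subgraph as a set of coin positions. -/
noncomputable def es {G : SimpleGraph (Fin n)} (K : G.Subgraph) : Finset (EdgeSlot n) :=
  univ.filter fun e => e.1 ∈ K.edgeSet

lemma mem_es {G : SimpleGraph (Fin n)} {K : G.Subgraph} {e : EdgeSlot n} :
    e ∈ es K ↔ e.1 ∈ K.edgeSet := by simp [es]

lemma es_orbit {T : Finset (EdgeSlot n)} (hT : T ⊆ hat H ψ) {G : SimpleGraph (Fin n)}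
    {K : G.Subgraph} (φ : (sub H ψ T).coe ≃g K.coe) :
    ∃ σ : Equiv.Perm (Fin n), σ • T = es K := by
  haveI : Finite W := Finite.of_injective _ ψ.injective
  obtain ⟨σ, hσ⟩ := Equiv.Perm.exists_extending_pair
    (fun v : (sub H ψ T).verts => ψ v.1) (fun v => (φ v).1)
    (ψ.injective.comp Subtype.val_injective) (Subtype.val_injective.comp φ.injective)
  refine ⟨σ, ?_⟩
  ext e
  rw [mem_smul_finset, mem_es]
  constructor
  · rintro ⟨e', he', rfl⟩
    obtain ⟨v, w, h, hv⟩ := (mem_hat H ψ).1 (hT he')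
    have h1 : (sub H ψ T).Adj v w := ⟨h, e', he', hv⟩
    have h2 : K.coe.Adj (φ ⟨v, h1.fst_mem⟩) (φ ⟨w, h1.snd_mem⟩) := φ.map_rel_iff.2 h1
    rw [smul_val, hv, Sym2.map_mk]
    have e1 := hσ ⟨v, h1.fst_mem⟩
    have e2 := hσ ⟨w, h1.snd_mem⟩
    simp only at e1 e2
    rw [e1, e2]
    exact h2
  · obtain ⟨e, he⟩ := e
    induction e using Sym2.ind with
    | _ a b =>
      intro h
      have h0 : K.Adj a b := h
      have h1 : (sub H ψ T).coe.Adj (φ.symm ⟨a, h0.fst_mem⟩) (φ.symm ⟨b, h0.snd_mem⟩) :=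
        φ.symm.map_rel_iff.2 h0
      obtain ⟨-, e', he', hv⟩ := h1
      refine ⟨e', he', Subtype.ext ?_⟩
      rw [smul_val, hv, Sym2.map_mk, hσ, hσ]
      simp

lemma es_inj {T : Finset (EdgeSlot n)} {G : SimpleGraph (Fin n)} {K K' : G.Subgraph}
    (φ : (sub H ψ T).coe ≃g K.coe) (h : es K = es K') : K ≤ K' := by
  have hadj : ∀ a b, K.Adj a b → K'.Adj a b := by
    intro a b hab
    have h1 : (⟨s(a, b), fun h' => hab.ne (Sym2.mk_isDiag_iff.1 h')⟩ : EdgeSlot n) ∈ es K :=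
      mem_es.2 hab
    rw [h] at h1
    exact mem_es.1 h1
  refine ⟨fun a ha => ?_, hadj⟩
  obtain ⟨w, hw⟩ := (φ.symm ⟨a, ha⟩).2
  have h1 : (sub H ψ T).Adj (φ.symm ⟨a, ha⟩).1 w := hw
  have h2 : K.coe.Adj (φ (φ.symm ⟨a, ha⟩)) (φ ⟨w, h1.snd_mem⟩) := φ.map_rel_iff.2 h1
  rw [φ.apply_symm_apply] at h2
  exact (hadj _ _ h2).fst_mem

lemma count_le {T : Finset (EdgeSlot n)} (hT : T ⊆ hat H ψ) (ω : EdgeSlot n → Bool) :
    (((graphOf ω).copyCount (sub H ψ T).coe : ℕ) : ℝ) ≤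
      ∑ T' ∈ univ.image (fun g : Equiv.Perm (Fin n) => g • T), ind (∀ e ∈ T', ω e = true) := by
  classical
  rw [sum_ind, Nat.cast_le, SimpleGraph.copyCount]
  refine card_le_card_of_injOn es (fun K hK => ?_) fun K hK K' hK' h => ?_
  · obtain ⟨φ⟩ := (mem_filter.1 (mem_coe.1 hK)).2
    obtain ⟨σ, hσ⟩ := es_orbit H ψ hT φ
    refine mem_coe.2 (mem_filter.2 ⟨mem_image.2 ⟨σ, mem_univ _, hσ⟩, ?_⟩)
    rintro ⟨e, he⟩ h
    rw [mem_es] at h
    induction e using Sym2.ind with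
    | _ a b =>
      obtain ⟨_, h2⟩ := (adj_iff ω a b).1 (K.adj_sub h)
      exact h2
  · obtain ⟨φ⟩ := (mem_filter.1 (mem_coe.1 hK)).2
    obtain ⟨φ'⟩ := (mem_filter.1 (mem_coe.1 hK')).2
    exact le_antisymm (es_inj H ψ φ h) (es_inj H ψ φ' h.symm)

lemma expect_le {T : Finset (EdgeSlot n)} (hT : T ⊆ hat H ψ) {p : ℝ} (h0 : 0 ≤ p) (h1 : p ≤ 1) :
    gnpExpect n p (fun G => (G.copyCount (sub H ψ T).coe : ℝ)) ≤
      ((univ.image fun g : Equiv.Perm (Fin n) => g • T).card : ℝ) * p ^ T.card := by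
  have hb : IsBias (fun _ : EdgeSlot n => p) := fun _ => ⟨h0, h1⟩
  refine le_trans (Ex_mono hb (count_le H ψ hT)) (le_of_eq ?_)
  rw [Ex_sum, ← nsmul_eq_mul, ← sum_const]
  refine sum_congr rfl fun T' hT' => ?_
  obtain ⟨σ, -, rfl⟩ := mem_image.1 hT'
  have := Pr_all (fun _ : EdgeSlot n => p) (σ • T)
  rw [prod_const, card_smul_finset] at this
  exact this

lemma contained (ω : EdgeSlot n → Bool) (σ : Equiv.Perm (Fin n))
    (h : ∀ x ∈ σ • hat H ψ, ω x = true) : H.IsContained (graphOf ω) := by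
  refine ⟨⟨⟨fun v => σ (ψ v), fun {v w} hvw => ?_⟩, σ.injective.comp ψ.injective⟩⟩
  obtain ⟨h', hm⟩ := mk_mem_hat H ψ hvw
  exact (adj_iff ω _ _).2 ⟨(σ • (⟨s(ψ v, ψ w), h'⟩ : EdgeSlot n)).2, h _ (smul_mem_smul_finset hm)⟩

end BR

open BR in
theorem bridge : BridgeStmt := by
  intro hS hP n _ W _ _ H _ hW hH p h0 h1 hE
  letI := act n
  obtain ⟨ψ⟩ : Nonempty (W ↪ Fin n) :=
    Function.Embedding.nonempty_of_card_le (by simpa using hW)
  have horb : ∀ T ⊆ hat H ψ, 1 / 2 ≤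
      ((univ.image fun g : Equiv.Perm (Fin n) => g • T).card : ℝ) * p ^ T.card :=
    fun T hT => (hE _).trans (expect_le H ψ hT h0 h1)
  have hp : 0 < p := by
    refine lt_of_le_of_ne h0 fun hp => ?_
    have h2 := horb _ Subset.rfl
    obtain ⟨e, he⟩ := card_pos.1 hH
    induction e using Sym2.ind with
    | _ v w =>
      obtain ⟨_, hm⟩ := mk_mem_hat H ψ (v := v) (w := w) (by simpa using he)
      rw [← hp, zero_pow (card_ne_zero.2 ⟨_, hm⟩)] at h2
      norm_num at h2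
  have hq : Real.exp 41 * p ≤ Real.exp 50 * p / 512 := by
    have h2 : (512 : ℝ) ≤ Real.exp 9 := by
      have h3 : (2 : ℝ) ≤ Real.exp 1 := by have := Real.add_one_le_exp (1 : ℝ); linarith
      have h4 := pow_le_pow_left₀ (by norm_num) h3 9
      rw [← Real.exp_nat_mul] at h4
      norm_num at h4
      exact h4
    have h5 : Real.exp 50 = Real.exp 41 * Real.exp 9 := by rw [← Real.exp_add]; norm_num
    rw [h5, le_div_iff₀ (by norm_num)]
    have := mul_pos (Real.exp_pos 41) hp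
    nlinarith
  have key := hP (EdgeSlot n) (Equiv.Perm (Fin n)) (fun g => g • hat H ψ) H.edgeFinset.card
    (Real.exp 50 * p / 512) hH (fun g => by rw [card_smul_finset]; exact card_hat H ψ)
    (by positivity) fun I => (hS _ _ (hat H ψ) p hp horb I).trans
      (mul_le_mul_of_nonneg_right (pow_le_pow_left₀ (by positivity) hq _) (Nat.cast_nonneg _))
  have e1 : 2 ^ 20 * (Real.exp 50 * p / 512) = 2048 * Real.exp 50 * p := by ring
  rw [e1] at key
  refine key.trans ?_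
  have hl : 0 ≤ Real.logb 2 (H.edgeFinset.card : ℝ) :=
    Real.logb_nonneg (by norm_num) (by exact_mod_cast hH)
  unfold gnpProb Crest.FinProb.bernoulliProb
  refine sum_le_sum_of_subset_of_nonneg (fun ω hω => ?_) fun ω _ _ => ?_
  · simp only [mem_filter, mem_univ, true_and, Set.mem_ofPred_eq] at hω ⊢
    obtain ⟨σ, hσ⟩ := hω
    exact contained H ψ ω σ hσ
  · exact bw_nonneg (π := fun _ => _) (fun _ => ⟨le_min zero_le_one (by positivity), min_le_left _ _⟩) ω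

end Crest.Agent.R55
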