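import Crest.Agent.R55.St

/-!
Row 55: the potential of a state, one step of the process, and the bound on the potential.
-/

set_option autoImplicit false
set_option linter.unusedSectionVars false

namespace Crest.Agent.R55

open Finset Crest.Agent.R43
open scoped Pointwise

lemma phi_ineq {r : ℝ} (h0 : 0 ≤ r) (h1 : r ≤ 1) :
    2 * (8 * r - 4 * (r * √r)) - 4 / 3 * (r * √r) ≥
      8 * (1 - (1 - r) * (1 - r)) -
        4 * ((1 - (1 - r) * (1 - r)) * √(1 - (1 - r) * (1 - r))) := by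
  obtain ⟨y, hy0, rfl⟩ : ∃ y : ℝ, 0 ≤ y ∧ r = y ^ 2 := ⟨√r, Real.sqrt_nonneg _, (Real.sq_sqrt h0).symm⟩
  have hy1 : y ≤ 1 := by nlinarith
  rw [Real.sqrt_sq hy0]
  have h2 : y * (7 / 5 - 2 / 5 * y) ≤ √(1 - (1 - y ^ 2) * (1 - y ^ 2)) := by
    refine Real.le_sqrt_of_sq_le ?_
    have : (7 / 5 - 2 / 5 * y) ^ 2 ≤ 2 - y ^ 2 := by nlinarith
    nlinarith [mul_le_mul_of_nonneg_left this (sq_nonneg y)]
  have h3 : 0 ≤ 1 - (1 - y ^ 2) * (1 - y ^ 2) := by nlinarith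
  have h4 := mul_le_mul_of_nonneg_left h2 h3
  have h5 : 7 / 3 ≤ 2 * y + (2 - y ^ 2) * (7 / 5 - 2 / 5 * y) := by nlinarith
  nlinarith [mul_le_mul_of_nonneg_left h5 (pow_nonneg hy0 3)]

namespace St

variable {G X : Type} [Group G] [Fintype G] [Fintype X] [DecidableEq X] [MulAction G X]
variable {H : Finset X} {lam : ℝ} (s : St G X H lam)

/-- Expected size of `U`. -/
noncomputable def u : ℝ := E s.μ fun ω => (s.U ω).card

/-- Excess information. -/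
noncomputable def e : ℝ :=
  Hn s.μ s.W + Hn s.μ s.A - Hn s.μ (fun ω => (s.W ω, s.A ω)) - lam * s.u

/-- Conditional probability that `x` lies in `U`. -/
noncomputable def r (x : X) : s.Ω → ℝ := cE s.μ s.C fun ω => ind (x ∈ s.U ω)

/-- The concentration functional. -/
noncomputable def Q : ℝ := ∑ x, E s.μ fun ω => ind (x ∈ s.U ω) * √(s.r x ω)

/-- The potential. -/
noncomputable def F (κ : ℝ) : ℝ :=
  κ * s.u / 4 - s.e - (Real.log 2 + Hn s.μ s.C - Hn s.μ s.A) / 4 - 8 * s.u + 4 * s.Q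

lemma r_nonneg (x : X) (ω : s.Ω) : 0 ≤ s.r x ω := cE_nonneg s.prob _ (fun _ => ind_nonneg _) ω
lemma r_le_one (x : X) (ω : s.Ω) : s.r x ω ≤ 1 := cE_le_one s.prob _ (fun _ => ind_le_one _) ω

lemma u_eq : s.u = ∑ x, E s.μ (s.r x) := by
  unfold u
  simp only [card_eq_sum_ind]
  rw [E_sum]
  exact sum_congr rfl fun x _ => (E_cE s.prob _ _).symm

lemma Q_eq : s.Q = ∑ x, E s.μ fun ω => s.r x ω * √(s.r x ω) :=
  sum_congr rfl fun x _ => (tower s.prob s.C (fun ω => ind (x ∈ s.U ω))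
    (ψ := fun ω => √(s.r x ω)) fun ω ω' h => congrArg Real.sqrt (cE_det _ _ ω ω' h)).symm

lemma u_nonneg : 0 ≤ s.u := E_nonneg s.prob fun _ => Nat.cast_nonneg _

lemma u_le : s.u ≤ Fintype.card X :=
  E_le_const s.prob fun ω => by exact_mod_cast card_le_univ _

lemma Q_nonneg : 0 ≤ s.Q :=
  sum_nonneg fun _ _ => E_nonneg s.prob fun _ => mul_nonneg (ind_nonneg _) (Real.sqrt_nonneg _)

lemma Q_le : s.Q ≤ Fintype.card X := by
  have : s.Q ≤ ∑ _x : X, (1 : ℝ) := sum_le_sum fun x _ => E_le_const s.prob fun ω =>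
    mul_le_one₀ (ind_le_one _) (Real.sqrt_nonneg _) (Real.sqrt_le_one.2 (s.r_le_one x ω))
  simpa using this

lemma e_nonneg : 0 ≤ s.e :=
  sub_nonneg.2 (info_ge s.prob s.spread s.W s.U s.WU s.sub)

lemma F_le {κ : ℝ} (hκ : 0 ≤ κ) : s.F κ ≤ κ * Fintype.card X / 4 + 4 * Fintype.card X := by
  unfold F
  have h1 := s.e_nonneg
  have h2 := s.u_nonneg
  have h3 := s.Q_le
  have h4 := mul_le_mul_of_nonneg_left s.u_le hκ
  have h5 : Hn s.μ s.A ≤ Hn s.μ s.C := Hn_mono s.prob fun _ _ h => congrArg Prod.fst h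
  have h6 : 0 < Real.log 2 := Real.log_pos one_lt_two
  linarith

/-- Expected size of the common part. -/
noncomputable def z : ℝ := E s.dbl.μ fun y => (s.Z y).card

/-- Entropy of `(W, Z)`. -/
noncomputable def Y : ℝ := Hn s.dbl.μ fun y => (s.W y.1.1, s.Z y)

/-- Entropy of `(Z, P)`. -/
noncomputable def L : ℝ := Hn s.dbl.μ fun y => (s.Z y, s.P y.1.1)

lemma dbl_u : s.dbl.u = 2 * s.u - s.z := by
  unfold u z
  rw [two_mul]
  nth_rewrite 1 [← s.mp1 fun ω => (s.U ω).card]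
  rw [← s.mp2 fun ω => (s.U ω).card, ← E_add, ← E_sub]
  refine E_congr fun y => ?_
  have := card_union_add_card_inter (s.U y.1.1) (s.U y.1.2)
  change ((s.U y.1.1 ∪ s.U y.1.2).card : ℝ) =
    (s.U y.1.1).card + (s.U y.1.2).card - (s.U y.1.1 ∩ s.U y.1.2).card
  have h2 : ((s.U y.1.1 ∪ s.U y.1.2).card : ℝ) + (s.U y.1.1 ∩ s.U y.1.2).card =
    (s.U y.1.1).card + (s.U y.1.2).card := by exact_mod_cast this
  linarith

lemma WA_C : Det (fun ω => (s.W ω, s.A ω)) s.C := fun _ _ h =>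
  Prod.ext (Prod.ext_iff.1 h).2 (s.WP _ _ (Prod.ext_iff.1 h).1)

lemma dbl_A : Hn s.dbl.μ s.dbl.A = Hn s.μ s.A := s.mp1.Hn s.A

lemma dbl_C : Hn s.dbl.μ s.dbl.C = Hn s.μ s.C := s.mp1.Hn s.C

lemma dbl_WA : Hn s.dbl.μ (fun y => (s.dbl.W y, s.dbl.A y)) =
    2 * Hn s.μ (fun ω => (s.W ω, s.A ω)) - Hn s.μ s.C := by
  rw [two_mul, ← Hn_rp (f := s.C) (f' := s.C) s.prob s.prob (fun _ => rfl) s.WA_C s.WA_C]
  refine Hn_congr (μ := s.dbl.μ) (fun y y' h => ?_) fun y y' h => ?_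
  · have h1 : s.W y.1.1 = s.W y'.1.1 := congrArg (·.1.1) h
    have h2 : s.W y.1.2 = s.W y'.1.2 := congrArg (·.1.2) h
    have h3 : s.A y.1.1 = s.A y'.1.1 := congrArg (·.2) h
    have h4 : s.A y.1.2 = s.A y'.1.2 := s.A_eq.trans (h3.trans s.A_eq.symm)
    exact Prod.ext (Prod.ext h1 h3) (Prod.ext h2 h4)
  · have h1 : s.W y.1.1 = s.W y'.1.1 := congrArg (·.1.1) h
    have h2 : s.W y.1.2 = s.W y'.1.2 := congrArg (·.2.1) h
    have h3 : s.A y.1.1 = s.A y'.1.1 := congrArg (·.1.2) h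
    exact Prod.ext (Prod.ext h1 h2) h3

lemma dbl_W : Hn s.dbl.μ s.dbl.W + s.L ≤ 2 * s.Y := by
  have h1 := Hn_submod s.dbl.prob (g := fun y => (s.W y.1.1, s.Z y))
    (g' := fun y => (s.W y.1.2, s.Z y)) (k := fun y => (s.Z y, s.P y.1.1))
    (fun y y' h => Prod.ext (Prod.ext_iff.1 h).2 (s.WP _ _ (Prod.ext_iff.1 h).1))
    (fun y y' h => Prod.ext (Prod.ext_iff.1 h).2
      (s.P_eq.symm.trans ((s.WP _ _ (Prod.ext_iff.1 h).1).trans s.P_eq)))
  have h2 : Hn s.dbl.μ (fun y => (s.W y.1.2, s.Z y)) = s.Y := by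
    refine Eq.trans ?_ ((MP_swap (μ := s.μ) s.C).Hn fun y => (s.W y.1.1, s.Z y))
    exact congrArg (Hn s.dbl.μ) (funext fun y => Prod.ext rfl (inter_comm _ _))
  have h3 := Hn_mono s.dbl.prob (f := fun y => ((s.W y.1.1, s.Z y), (s.W y.1.2, s.Z y)))
    (g := s.dbl.W) fun y y' h => Prod.ext (congrArg (·.1.1) h) (congrArg (·.2.1) h)
  unfold L
  change _ ≤ s.Y + _ at h1
  linarith

lemma L_ge {p : ℝ} (hp : 0 < p)
    (hH : ∀ T ⊆ H, 1 / 2 ≤ ((univ.image fun g : G => g • T).card : ℝ) * p ^ T.card) :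
    - Real.log p * s.z - Real.log 2 ≤ s.L := by
  refine (ent_ge s.dbl.prob hp hH (A := s.dbl.A) s.Z
    (fun y => inter_subset_left.trans (s.sub y.1.1)) fun g => ?_).trans
    (Hn_mono s.dbl.prob fun y y' h => congrArg Prod.fst h)
  obtain ⟨σ, h1, h2, h3, h4, h5⟩ := s.inv g
  have h6 : Pat σ s.C := h3.pair h5
  refine ⟨rpEquiv σ σ fun ω ω' => h6 ω' ω, rp_rpEquiv _ h1 h1 h6, fun y => ?_⟩
  change s.U (σ y.1.1) ∩ s.U (σ y.1.2) = _
  rw [h2, h2, ← smul_finset_inter]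
  rfl

lemma pin_A : Hn s.pin.μ s.pin.A = Hn s.μ s.A := s.mp3.Hn s.A

lemma pin_u : s.pin.u = s.u := s.mp3 fun ω => (s.U ω).card

lemma L_ge' : lam * s.z ≤ s.L + Hn s.μ s.A - Hn s.pin.μ s.pin.C := by
  have h1 := info_ge s.pin.prob s.pin.spread s.pin.P (fun x => s.Z x.1.2)
    (fun x x' h => (Prod.ext_iff.1 h).2) fun x => (s.Z_sub x).trans (s.sub x.1.1)
  have h2 : E s.pin.μ (fun x => ((s.Z x.1.2).card : ℝ)) = s.z := s.mp4 fun y => (s.Z y).card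
  have h3 : Hn s.pin.μ s.pin.P = s.L := by
    rw [L, ← s.mp4.Hn]
    refine Hn_congr (fun x x' h => ?_) fun x x' h => ?_
    · exact Prod.ext (Prod.ext_iff.1 h).2 ((s.WP _ _ s.W_eq).trans
        ((Prod.ext_iff.1 h).1.trans (s.WP _ _ s.W_eq).symm))
    · exact Prod.ext ((s.WP _ _ s.W_eq).symm.trans
        ((Prod.ext_iff.1 h).2.trans (s.WP _ _ s.W_eq))) (Prod.ext_iff.1 h).1
  have h4 : Hn s.pin.μ (fun x => (s.pin.P x, s.pin.A x)) = Hn s.pin.μ s.pin.C :=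
    Hn_congr (fun x x' h => Prod.ext (Prod.ext_iff.1 h).2 (Prod.ext_iff.1 h).1)
      fun x x' h => Prod.ext (Prod.ext_iff.1 h).2 (Prod.ext_iff.1 h).1
  rw [h2, h3, h4, pin_A] at h1
  exact h1

lemma pin_W : Hn s.pin.μ s.pin.W = s.Y := by
  rw [Y, ← s.mp4.Hn]
  congr 1
  funext x
  exact Prod.ext s.W_eq.symm rfl

lemma pin_WA : Hn s.pin.μ (fun x => (s.pin.W x, s.pin.A x)) =
    Hn s.μ (fun ω => (s.W ω, s.A ω)) + s.Y - Hn s.μ s.W := by
  refine Eq.trans ?_ (Hn_rp (f := s.W) (f' := s.W1) s.prob s.dbl.prob s.lw_W1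
    (g := fun ω => (s.W ω, s.A ω)) (g' := fun y => (s.W y.1.1, s.Z y))
    (fun _ _ h => (Prod.ext_iff.1 h).1) fun _ _ h => (Prod.ext_iff.1 h).1)
  refine Hn_congr (μ := s.pin.μ) (fun x x' h => ?_) fun x x' h => ?_
  · have h1 : s.W x.1.1 = s.W x'.1.1 := congrArg (·.1.1) h
    have h2 : s.Z x.1.2 = s.Z x'.1.2 := congrArg (·.1.2) h
    have h3 : s.A x.1.1 = s.A x'.1.1 := congrArg (·.2) h
    exact Prod.ext (Prod.ext h1 h3) (Prod.ext (s.W_eq.trans (h1.trans s.W_eq.symm)) h2)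
  · have h1 : s.W x.1.1 = s.W x'.1.1 := congrArg (·.1.1) h
    have h2 : s.Z x.1.2 = s.Z x'.1.2 := congrArg (·.2.2) h
    have h3 : s.A x.1.1 = s.A x'.1.1 := congrArg (·.1.2) h
    exact Prod.ext (Prod.ext h1 h2) h3

lemma pin_e : s.pin.e = s.e := by
  unfold e
  rw [pin_W, pin_A, pin_WA, pin_u]
  ring

lemma key_pin (key : KeyStmt) :
    3 / 2 * (s.Y - Hn s.μ s.W) ≤ 1 / 2 * (Hn s.pin.μ s.pin.C - Hn s.μ s.C) + s.pin.Q := by
  have h1 := key _ _ _ _ s.pin.μ s.pin.prob (fun x => s.W x.1.1) (fun x => s.C x.1.1)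
    (fun x => s.Z x.1.2) s.pin.U (fun x x' h => s.WU _ _ h) s.Z_sub
  have h2 : Hn s.pin.μ (fun x => (s.Z x.1.2, s.W x.1.1, s.C x.1.1)) =
      Hn s.pin.μ fun x => (s.pin.W x, s.pin.A x) := by
    refine Hn_congr (fun x x' h => ?_) fun x x' h => ?_
    · exact Prod.ext (Prod.ext (congrArg (·.2.1) h) (congrArg (·.1) h)) (congrArg (·.2.2.1) h)
    · have h1 : s.W x.1.1 = s.W x'.1.1 := congrArg (·.1.1) h
      exact Prod.ext (congrArg (·.1.2) h)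
        (Prod.ext h1 (Prod.ext (congrArg (·.2) h) (s.WP _ _ h1)))
  have h3 : Hn s.pin.μ (fun x => (s.W x.1.1, s.C x.1.1)) = Hn s.μ fun ω => (s.W ω, s.A ω) := by
    rw [s.mp3.Hn fun ω => (s.W ω, s.C ω)]
    exact Hn_congr (fun x x' h => Prod.ext (congrArg (·.1) h) (congrArg (·.2.1) h))
      fun x x' h => Prod.ext (congrArg (·.1) h) (s.WA_C _ _ h)
  have h4 : Det (fun x : s.pin.Ω => (s.Z x.1.2, s.C x.1.1)) s.pin.C := fun x x' h =>
    Prod.ext (congrArg (·.2.1) h) (Prod.ext (congrArg (·.2.2) h) (congrArg (·.1) h))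
  have h5 : Det s.pin.C fun x : s.pin.Ω => (s.Z x.1.2, s.C x.1.1) := fun x x' h =>
    Prod.ext (congrArg (·.2.2) h) (Prod.ext (congrArg (·.1) h) (congrArg (·.2.1) h))
  have h6 : ∑ x, (E s.pin.μ fun ω => ind (x ∈ s.pin.U ω) *
      √(cE s.pin.μ (fun x : s.pin.Ω => (s.Z x.1.2, s.C x.1.1))
        (fun ω => ind (x ∈ s.pin.U ω)) ω)) = s.pin.Q :=
    sum_congr rfl fun x _ => E_congr fun ω => by rw [cE_congr h4 h5]; rfl
  rw [h2, h3, Hn_congr h4 h5, s.mp3.Hn s.C, h6, pin_WA] at h1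
  linarith

lemma dbl_r (x : X) (y : s.dbl.Ω) :
    s.dbl.r x y = 1 - (1 - s.r x y.1.1) * (1 - s.r x y.1.1) := by
  have h1 := cE_rp s.prob s.C (fun ω => ind (x ∉ s.U ω)) (fun ω => ind (x ∉ s.U ω)) y
  rw [cE_not s.prob] at h1
  have h2 := cE_not s.dbl.prob s.dbl.C (fun y => x ∈ s.dbl.U y) y
  have h3 : (fun y : s.dbl.Ω => ind (x ∉ s.dbl.U y)) =
      fun y => ind (x ∉ s.U y.1.1) * ind (x ∉ s.U y.1.2) := by
    funext y
    rw [← ind_and]
    refine ind_congr ?_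
    change x ∉ s.U y.1.1 ∪ s.U y.1.2 ↔ _
    rw [mem_union, not_or]
  rw [h3] at h2
  have h4 := h2.symm.trans h1
  unfold r
  linarith

lemma dbl_phi : 8 * s.dbl.u - 4 * s.dbl.Q ≤ 2 * (8 * s.u - 4 * s.Q) - 4 / 3 * s.Q := by
  simp only [u_eq, Q_eq, mul_sum, ← sum_sub_distrib]
  refine sum_le_sum fun x _ => ?_
  have h1 : E s.dbl.μ (s.dbl.r x) = E s.μ fun ω => 1 - (1 - s.r x ω) * (1 - s.r x ω) := by
    rw [← s.mp1]; exact E_congr fun y => s.dbl_r x y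
  have h2 : E s.dbl.μ (fun y => s.dbl.r x y * √(s.dbl.r x y)) = E s.μ fun ω =>
      (1 - (1 - s.r x ω) * (1 - s.r x ω)) * √(1 - (1 - s.r x ω) * (1 - s.r x ω)) := by
    rw [← s.mp1]; exact E_congr fun y => by rw [s.dbl_r x y]
  rw [h1, h2]
  simp only [← E_const_mul, ← E_sub]
  exact E_mono s.prob fun ω => phi_ineq (s.r_nonneg x ω) (s.r_le_one x ω)

/-- One step: pinning gains one unit, or doubling nearly doubles the potential. -/
lemma step (key : KeyStmt) {p κ : ℝ} (hp : 0 < p) (hlam : lam = - Real.log p - κ)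
    (hH : ∀ T ⊆ H, 1 / 2 ≤ ((univ.image fun g : G => g • T).card : ℝ) * p ^ T.card) :
    s.F κ + 1 ≤ s.pin.F κ ∨ 2 * s.F κ - 1 / 3 ≤ s.dbl.F κ := by
  rw [or_iff_not_imp_left]
  intro hn
  have h1 := s.key_pin key
  have h2 := s.L_ge hp hH
  have h3 := s.L_ge'
  have h4 := s.dbl_W
  have h5 := s.dbl_phi
  have h6 : - Real.log p * s.z = lam * s.z + κ * s.z := by
    rw [← add_mul, show lam + κ = - Real.log p by linarith]
  unfold F at hn ⊢
  rw [pin_e, pin_u, pin_A, not_le] at hn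
  unfold e
  rw [dbl_WA, dbl_A, dbl_C]
  rw [dbl_u] at h5 ⊢
  linarith

theorem F_le_one (key : KeyStmt) {p κ : ℝ} (hp : 0 < p) (hκ : 0 ≤ κ)
    (hlam : lam = - Real.log p - κ)
    (hH : ∀ T ⊆ H, 1 / 2 ≤ ((univ.image fun g : G => g • T).card : ℝ) * p ^ T.card) :
    s.F κ ≤ 1 := by
  let S : Set ℝ := Set.range fun t : St G X H lam => t.F κ
  have hb : BddAbove S := ⟨_, by rintro _ ⟨t, rfl⟩; exact t.F_le hκ⟩
  have hle : ∀ t : St G X H lam, t.F κ ≤ sSup S := fun t => le_csSup hb ⟨t, rfl⟩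
  obtain ⟨_, ⟨t, rfl⟩, ht⟩ := exists_lt_of_lt_csSup (s := S) ⟨_, s, rfl⟩
    (show sSup S - 1 / 3 < sSup S by linarith)
  have h1 := hle s
  rcases t.step key hp hlam hH with h | h
  · have := hle t.pin; beta_reduce at ht; linarith
  · have := hle t.dbl; beta_reduce at ht; linarith

end St

end Crest.Agent.R55
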