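import Crest.Prelude.Def_RandomGraph
import Crest.Agent.R43.Coins

/-!
Row 55 (second Kahn–Kalai conjecture): definitions and the statements of the parts.
-/

set_option autoImplicit false
set_option linter.unusedSectionVars false

namespace Crest.Agent.R55

open Finset Crest.Agent.R43
open scoped Pointwise

section Ent

variable {Ω : Type} [Fintype Ω]

/-- Expectation (weighted sum) on a finite space. -/
noncomputable def E (μ : Ω → ℝ) (f : Ω → ℝ) : ℝ := ∑ ω, μ ω * f ω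

/-- Law of a random variable: the weight of the value `b`. -/
noncomputable def lw (μ : Ω → ℝ) {β : Type} (f : Ω → β) (b : β) : ℝ :=
  E μ fun ω => ind (f ω = b)

/-- Shannon entropy (natural logarithm). -/
noncomputable def Hn (μ : Ω → ℝ) {β : Type} (f : Ω → β) : ℝ :=
  E μ fun ω => - Real.log (lw μ f (f ω))

/-- Conditional expectation of `φ` given `C`, at the point `ω`. -/
noncomputable def cE (μ : Ω → ℝ) {γ : Type} (C : Ω → γ) (φ : Ω → ℝ) (ω : Ω) : ℝ :=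
  (E μ fun ω' => ind (C ω' = C ω) * φ ω') / lw μ C (C ω)

/-- Probability weights, positive everywhere. -/
structure IsP (μ : Ω → ℝ) : Prop where
  pos : ∀ ω, 0 < μ ω
  one : ∑ ω, μ ω = 1

/-- `f` determines `g`. -/
def Det {β γ : Type} (f : Ω → β) (g : Ω → γ) : Prop := ∀ ω ω', f ω = f ω' → g ω = g ω'

end Ent

/-- **55-K** (the key entropy inequality).  `Z ⊆ U` are random sets, `W` determines `U`; then
`H(Z | W, C) ≤ I(Z ; W | C) / 2 + ∑ₓ E[ P(x ∈ U | C, Z)^(3/2) ]`.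

Proof.  Induction on a finite set `S` of revealed points, `Z_S = Z ∩ S`:
`3/2 (H(Z_S,W,C) - H(W,C)) ≤ 1/2 (H(Z_S,C) - H(C)) + ∑_{x ∈ S} E[1_{x∈U} √P(x∈U | C,Z)]`.
`Z_{S ∪ x}` and `(Z_S, B)` with `B = [x ∈ Z]` determine each other, so the step is the binary
inequality with `C' = (C, Z_S)`, `D = (W, C')`, `E = [x ∈ U]`, `r = P(E | C')`:
`3/2 (H(B,D) - H(D)) ≤ 1/2 (H(B,C') - H(C')) + E[1_E √r]`.  With `q = P(B|D)`, `q' = P(B|C')`,
`H(B,D) - H(D) = E[-1_B log q - 1_{¬B} log (1-q)]` (`Hn_bin`); use `-log t ≤ -log φ + φ/t - 1`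
with (1) `φ = √r` on `B`, `1` off `B`, and (2) `φ = q'/r` on `B`, `1-q'` off `B`; the tower
property gives `E[1_B ψ/q] = E[q ψ/q] ≤ E[1_E ψ]` for `ψ ≥ 0` determined by `D` (`q = 0` off `E`,
since `D` determines `E` and `B ⊆ E`) and `E[1_{¬B} ψ/(1-q)] ≤ E ψ`.  So (1) gives
`H(B|D) ≤ -1/2 E[1_B log r] + E[1_E √r]`, (2) gives `H(B|D) ≤ H(B|C') + E[1_B log r]`
(`E[1_E q'/r] = E[r q'/r] ≤ E q'`); add (1) + (2)/2.  Finally `E[1_E √r] ≤ E[1_E √r']` for the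
finer `r' = P(E | C, Z)`: `E[1_E √r] = E[r √r] = E[r' √r]` and `3 y² t ≤ 2 y³ + t³`
(`y = √r'`, `t = √r`), `E[1_E √r'] = E[r' √r']`. -/
def KeyStmt : Prop :=
  ∀ (Ω X β γ : Type) [Fintype Ω] [Fintype X] [DecidableEq X] (μ : Ω → ℝ), IsP μ →
    ∀ (W : Ω → β) (C : Ω → γ) (Z U : Ω → Finset X), Det W U → (∀ ω, Z ω ⊆ U ω) →
      3 / 2 * (Hn μ (fun ω => (Z ω, W ω, C ω)) - Hn μ (fun ω => (W ω, C ω))) ≤
        1 / 2 * (Hn μ (fun ω => (Z ω, C ω)) - Hn μ C) +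
        ∑ x, E μ fun ω => ind (x ∈ U ω) *
          √(cE μ (fun ω => (Z ω, C ω)) (fun ω => ind (x ∈ U ω)) ω)

/-- The spread theorem: if every subset `T` of `H` has `|orbit T| p^|T| ≥ 1/2`, the uniform
measure on the translates of `H` is `e^41 p`-spread. -/
def SpreadStmt : Prop :=
  ∀ (G X : Type) [Group G] [Fintype G] [Fintype X] [DecidableEq X] [MulAction G X]
    (H : Finset X) (p : ℝ), 0 < p →
    (∀ T ⊆ H, 1 / 2 ≤ ((univ.image fun g : G => g • T).card : ℝ) * p ^ T.card) →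
    ∀ I : Finset X, ((univ.filter fun g : G => I ⊆ g • H).card : ℝ) ≤
      (Real.exp 41 * p) ^ I.card * Fintype.card G

/-- **55-P** (Frankston–Kahn–Narayanan–Park / Park–Pham): a `q`-spread family of sets of size
at most `h` has a member inside a random set of density `2^20 q (1 + log₂ h)` with probability
at least `1/2`.

Proof.  `cost 𝒞 = ∑_{T ∈ 𝒞} q^|T|`; `𝒞` covers `𝓗` if each member of `𝓗` contains a member of
`𝒞`.  Spread ⇒ every cover of `{S i}` costs at least `1` (count the `i`).  Fix `ρ₁ ∈ (0,1]` with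
`ρ₁ ≥ 64 q`, `ρ_k = 1 - (1-ρ₁)^k`.  Claim by induction on `k`: if all members of `𝓗` have size
`< 2^k` there is a cover of cost `≤ P_{ρ_k}(some member of 𝓗 is inside) + (1 - 2^(-k))/2`.
`k = 0`: `𝓗 ⊆ {∅}`.  Step, `ℓ = 2^(k+1) - 1`: a `ρ_{k+1}`-random set is `V ∪ V'` with `V` of
density `ρ₁`, `V'` of density `ρ_k`, independent.  For `S ∈ 𝓗` let `T(S,V) = S' \ V` with
`S' ∈ 𝓗`, `S' ⊆ V ∪ S`, `|S' \ V|` least; `T(S,V) ⊆ S`.  `𝓗'(V)` = the `T(S,V)` of size `< 2^k`,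
`𝒰(V)` = the others.  `𝒞'(V) ∪ 𝒰(V)` covers `𝓗` if `𝒞'(V)` covers `𝓗'(V)`; `T(S,V) ⊆ V'`
gives `S' ⊆ V ∪ V'`.  `E cost 𝒰(V) ≤ 4^(-ℓ) ≤ 2^(-(k+1))/2`: for `T ∈ 𝒰(V)` put `Y = V ∪ T`
(disjoint), `P(V) q^|T| ≤ P(Y) 64^(-|T|)`, and `T ⊆ χ(Y)` for ANY fixed `χ(Y) ∈ 𝓗` inside `Y`
(minimality: `χ(Y) \ V ⊆ T` has size `≥ |T|`), `(V,T) ↦ (Y,T)` is injective, so the sum is at
most `2^ℓ 64^(-2^k)`.  Average over `V` and pick a `V` below the mean.  Take
`k = Nat.log 2 h + 1 ≤ 1 + log₂ h` and `1 - ρ₁ = (1-ρ)^(1/k)` (Bernoulli: `ρ₁ ≥ ρ/k`); the cases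
`ρ = 1` (the all-true outcome has weight one) and `q = 0` (all `S i` are empty) are trivial. -/
def PPStmt : Prop :=
  ∀ (X ι : Type) [Fintype X] [DecidableEq X] [Fintype ι] [Nonempty ι] (S : ι → Finset X)
    (h : ℕ) (q : ℝ), 1 ≤ h → (∀ i, (S i).card ≤ h) → 0 ≤ q →
    (∀ I : Finset X, ((univ.filter fun i => I ⊆ S i).card : ℝ) ≤ q ^ I.card * Fintype.card ι) →
    1 / 2 ≤ Crest.FinProb.bernoulliProb (min 1 (2 ^ 20 * q * (1 + Real.logb 2 (h : ℝ))))
      {ω : X → Bool | ∃ i, ∀ x ∈ S i, ω x = true}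

/-- The statement S0076. -/
def Goal : Prop :=
  ∀ (n : ℕ) (_ : 2 ≤ n) (W : Type) [Fintype W] [DecidableEq W] (H : SimpleGraph W)
    [DecidableRel H.Adj] (_ : Fintype.card W ≤ n) (_ : 1 ≤ H.edgeFinset.card)
    (p : ℝ) (_ : 0 ≤ p) (_ : p ≤ 1)
    (_ : ∀ F : H.Subgraph, (1 : ℝ) / 2 ≤
      Crest.CombinatoricsR.RandomGraph.gnpExpect n p (fun G => (G.copyCount F.coe : ℝ))),
    (1 : ℝ) / 2 ≤ Crest.CombinatoricsR.RandomGraph.gnpProb n
      (min 1 (2048 * Real.exp 50 * p * (1 + Real.logb 2 (H.edgeFinset.card : ℝ))))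
      {G | H.IsContained G}

/-- **55-B** (bridge).  `G = Equiv.Perm (Fin n)` acts on `X = EdgeSlot n` by `Sym2.map`; fix
`ψ : W ↪ Fin n`, `Ĥ` = the image of the edge set of `H` (`h` elements).  For `T ⊆ Ĥ` let `F` be
the subgraph of `H` whose edges are those mapped into `T` and whose vertices are their endpoints.
A subgraph of `graphOf ω` isomorphic to `F.coe` has no isolated vertex, so it is determined by
its edge set, which is `σ • T` for a permutation `σ` extending the isomorphism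
(`Equiv.extendSubtype` / `Equiv.Perm.exists_extending_pair`), and lies inside `ω`.  Hence
`copyCount ≤ ∑_{T' ∈ orbit T} 1[T' ⊆ ω]`, expectation `|orbit T| p^|T|` (`Tal.Pr_all` or
`R43.Pr_all`); `p = 0` is impossible (`T = Ĥ`).  Apply the spread theorem, then `PPStmt` with
`ι = G`, `S g = g • Ĥ`, `q = e^50 p / 512 ≥ e^41 p`; `g • Ĥ ⊆ ω` gives the copy `g ∘ ψ`. -/
def BridgeStmt : Prop := SpreadStmt → PPStmt → Goal

end Crest.Agent.R55
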