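import Crest.Agent.R55.Defs

/-!
Row 55: toolkit for finite entropies (monotonicity, tower property, Gibbs inequality, transfer,
relatively independent products, submodularity).
-/

set_option autoImplicit false
set_option linter.unusedSectionVars false

namespace Crest.Agent.R55

open Finset Crest.Agent.R43

section Basic

variable {Ω Ω' : Type} [Fintype Ω] [Fintype Ω'] {μ : Ω → ℝ} {β γ δ : Type}

lemma E_add (f g : Ω → ℝ) : E μ (fun ω => f ω + g ω) = E μ f + E μ g := by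
  simp only [E, mul_add, sum_add_distrib]

lemma E_sub (f g : Ω → ℝ) : E μ (fun ω => f ω - g ω) = E μ f - E μ g := by
  simp only [E, mul_sub, sum_sub_distrib]

lemma E_neg (f : Ω → ℝ) : E μ (fun ω => - f ω) = - E μ f := by
  simp only [E, mul_neg, sum_neg_distrib]

lemma E_const_mul (c : ℝ) (f : Ω → ℝ) : E μ (fun ω => c * f ω) = c * E μ f := by
  simp only [E, mul_sum]; exact sum_congr rfl fun _ _ => by ring

lemma E_mul_const (c : ℝ) (f : Ω → ℝ) : E μ (fun ω => f ω * c) = E μ f * c := by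
  simp only [E, sum_mul]; exact sum_congr rfl fun _ _ => by ring

lemma E_div_const (c : ℝ) (f : Ω → ℝ) : E μ (fun ω => f ω / c) = E μ f / c := by
  simp only [div_eq_mul_inv, E_mul_const]

lemma E_sum {κ : Type*} (s : Finset κ) (f : κ → Ω → ℝ) :
    E μ (fun ω => ∑ k ∈ s, f k ω) = ∑ k ∈ s, E μ (f k) := by
  simp only [E, mul_sum]; exact sum_comm

lemma E_congr {f g : Ω → ℝ} (h : ∀ ω, f ω = g ω) : E μ f = E μ g := by
  rw [funext h]

lemma E_comm {ν : Ω' → ℝ} (F : Ω → Ω' → ℝ) :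
    E μ (fun ω => E ν fun ω' => F ω ω') = E ν fun ω' => E μ fun ω => F ω ω' := by
  simp only [E, mul_sum]
  rw [sum_comm]
  exact sum_congr rfl fun _ _ => sum_congr rfl fun _ _ => by ring

lemma E_zero : E μ (fun _ => 0) = 0 := by simp [E]

lemma E_const (h : IsP μ) (c : ℝ) : E μ (fun _ => c) = c := by
  simp only [E, ← sum_mul, h.one, one_mul]

lemma E_mono' (h : ∀ ω, 0 ≤ μ ω) {f g : Ω → ℝ} (hfg : ∀ ω, f ω ≤ g ω) : E μ f ≤ E μ g :=
  sum_le_sum fun ω _ => mul_le_mul_of_nonneg_left (hfg ω) (h ω)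

lemma IsP.nn (h : IsP μ) (ω : Ω) : 0 ≤ μ ω := (h.pos ω).le

lemma E_mono (h : IsP μ) {f g : Ω → ℝ} (hfg : ∀ ω, f ω ≤ g ω) : E μ f ≤ E μ g :=
  E_mono' h.nn hfg

lemma E_nonneg' (h : ∀ ω, 0 ≤ μ ω) {f : Ω → ℝ} (hf : ∀ ω, 0 ≤ f ω) : 0 ≤ E μ f :=
  sum_nonneg fun ω _ => mul_nonneg (h ω) (hf ω)

lemma E_nonneg (h : IsP μ) {f : Ω → ℝ} (hf : ∀ ω, 0 ≤ f ω) : 0 ≤ E μ f := E_nonneg' h.nn hf

lemma E_le_const (h : IsP μ) {f : Ω → ℝ} {c : ℝ} (hf : ∀ ω, f ω ≤ c) : E μ f ≤ c :=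
  (E_mono h hf).trans (E_const h c).le

lemma le_E_single (h : ∀ ω, 0 ≤ μ ω) {f : Ω → ℝ} (hf : ∀ ω, 0 ≤ f ω) (ω : Ω) :
    μ ω * f ω ≤ E μ f :=
  single_le_sum (f := fun ω => μ ω * f ω) (fun ω _ => mul_nonneg (h ω) (hf ω)) (mem_univ ω)

lemma E_pos (h : IsP μ) {f : Ω → ℝ} (hf : ∀ ω, 0 ≤ f ω) {ω : Ω} (hω : 0 < f ω) : 0 < E μ f :=
  (mul_pos (h.pos ω) hω).trans_le (le_E_single h.nn hf ω)

lemma Det.refl (f : Ω → β) : Det f f := fun _ _ h => h

lemma Det.trans {f : Ω → β} {g : Ω → γ} {k : Ω → δ} (h1 : Det f g) (h2 : Det g k) : Det f k :=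
  fun _ _ h => h2 _ _ (h1 _ _ h)

lemma lw_nonneg' (h : ∀ ω, 0 ≤ μ ω) (f : Ω → β) (b : β) : 0 ≤ lw μ f b :=
  E_nonneg' h fun _ => ind_nonneg _

lemma lw_nonneg (h : IsP μ) (f : Ω → β) (b : β) : 0 ≤ lw μ f b := lw_nonneg' h.nn f b

lemma lw_pos (h : IsP μ) (f : Ω → β) (ω : Ω) : 0 < lw μ f (f ω) :=
  E_pos h (fun _ => ind_nonneg _) (ω := ω) (by rw [ind_pos rfl]; exact one_pos)

lemma lw_le_one (h : IsP μ) (f : Ω → β) (b : β) : lw μ f b ≤ 1 :=
  E_le_const h fun _ => ind_le_one _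

lemma lw_le_of_det (h : IsP μ) {f : Ω → β} {g : Ω → γ} (hfg : Det f g) (ω : Ω) :
    lw μ f (f ω) ≤ lw μ g (g ω) :=
  E_mono h fun _ => ind_mono (hfg _ _)

lemma lw_congr {f : Ω → β} {g : Ω → γ} (h1 : Det f g) (h2 : Det g f) (ω : Ω) :
    lw μ f (f ω) = lw μ g (g ω) :=
  E_congr fun _ => ind_congr ⟨h1 _ _, h2 _ _⟩

lemma Hn_nonneg (h : IsP μ) (f : Ω → β) : 0 ≤ Hn μ f :=
  E_nonneg h fun ω => neg_nonneg.2 (Real.log_nonpos (lw_nonneg h _ _) (lw_le_one h f (f ω)))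

/-- A determined variable has less entropy. -/
lemma Hn_mono (h : IsP μ) {f : Ω → β} {g : Ω → γ} (hfg : Det f g) : Hn μ g ≤ Hn μ f :=
  E_mono h fun ω => neg_le_neg (Real.log_le_log (lw_pos h f ω) (lw_le_of_det h hfg ω))

lemma Hn_congr {f : Ω → β} {g : Ω → γ} (h1 : Det f g) (h2 : Det g f) : Hn μ f = Hn μ g :=
  E_congr fun ω => by rw [lw_congr h1 h2]

lemma cE_det (C : Ω → γ) (φ : Ω → ℝ) : Det C (cE μ C φ) := fun ω ω' h => by
  simp only [cE, h]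

lemma cE_congr {C : Ω → γ} {D : Ω → δ} (h1 : Det C D) (h2 : Det D C) (φ : Ω → ℝ) (ω : Ω) :
    cE μ C φ ω = cE μ D φ ω := by
  unfold cE
  rw [lw_congr h1 h2]
  congr 1
  exact E_congr fun ω' => by rw [ind_congr ⟨h1 ω' ω, h2 ω' ω⟩]

/-- The tower property. -/
lemma tower (h : IsP μ) (C : Ω → γ) (φ : Ω → ℝ) {ψ : Ω → ℝ} (hψ : Det C ψ) :
    E μ (fun ω => cE μ C φ ω * ψ ω) = E μ fun ω => φ ω * ψ ω := by
  have h1 : ∀ ω, cE μ C φ ω * ψ ω =
      E μ fun ω' => ind (C ω = C ω') * (φ ω' * ψ ω' / lw μ C (C ω')) := by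
    intro ω
    unfold cE
    rw [← E_div_const, ← E_mul_const]
    refine E_congr fun ω' => ?_
    by_cases hc : C ω' = C ω
    · rw [ind_pos hc, ind_pos hc.symm, hψ _ _ hc, hc]; ring
    · rw [ind_neg hc, ind_neg (Ne.symm hc)]; ring
  rw [E_congr h1, E_comm]
  refine E_congr fun ω' => ?_
  rw [E_mul_const]
  change lw μ C (C ω') * _ = _
  have := (lw_pos h C ω').ne'
  field_simp

lemma E_cE (h : IsP μ) (C : Ω → γ) (φ : Ω → ℝ) : E μ (cE μ C φ) = E μ φ := by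
  have := tower h C φ (ψ := fun _ => 1) (fun _ _ _ => rfl)
  simpa using this

lemma cE_mono (h : IsP μ) (C : Ω → γ) {φ ψ : Ω → ℝ} (ω : Ω)
    (hφ : ∀ ω', C ω' = C ω → φ ω' ≤ ψ ω') : cE μ C φ ω ≤ cE μ C ψ ω := by
  unfold cE
  refine div_le_div_of_nonneg_right (E_mono h fun ω' => ?_) (lw_nonneg h _ _)
  by_cases hc : C ω' = C ω
  · rw [ind_pos hc, one_mul, one_mul]; exact hφ _ hc
  · rw [ind_neg hc, zero_mul, zero_mul]

lemma cE_const (h : IsP μ) (C : Ω → γ) (c : ℝ) (ω : Ω) : cE μ C (fun _ => c) ω = c := by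
  unfold cE
  rw [E_mul_const]
  change lw μ C (C ω) * c / _ = _
  have := (lw_pos h C ω).ne'
  field_simp

lemma cE_eq_const (h : IsP μ) (C : Ω → γ) {φ : Ω → ℝ} {c : ℝ} (ω : Ω)
    (hφ : ∀ ω', C ω' = C ω → φ ω' = c) : cE μ C φ ω = c :=
  le_antisymm ((cE_mono h C ω fun ω' hc => (hφ ω' hc).le).trans (cE_const h C c ω).le)
    ((cE_const h C c ω).ge.trans (cE_mono h C ω fun ω' hc => (hφ ω' hc).ge))

lemma cE_nonneg (h : IsP μ) (C : Ω → γ) {φ : Ω → ℝ} (hφ : ∀ ω, 0 ≤ φ ω) (ω : Ω) :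
    0 ≤ cE μ C φ ω :=
  (cE_const h C 0 ω).ge.trans (cE_mono h C ω fun ω' _ => hφ ω')

lemma cE_le_one (h : IsP μ) (C : Ω → γ) {φ : Ω → ℝ} (hφ : ∀ ω, φ ω ≤ 1) (ω : Ω) :
    cE μ C φ ω ≤ 1 :=
  (cE_mono h C ω fun ω' _ => hφ ω').trans (cE_const h C 1 ω).le

lemma cE_pos (h : IsP μ) (C : Ω → γ) {φ : Ω → ℝ} (hφ : ∀ ω, 0 ≤ φ ω) {ω : Ω} (hω : 0 < φ ω) :
    0 < cE μ C φ ω :=
  div_pos (E_pos h (fun _ => mul_nonneg (ind_nonneg _) (hφ _)) (ω := ω)
    (by rw [ind_pos rfl, one_mul]; exact hω)) (lw_pos h C ω)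

lemma cE_sub (C : Ω → γ) (φ ψ : Ω → ℝ) (ω : Ω) :
    cE μ C (fun ω => φ ω - ψ ω) ω = cE μ C φ ω - cE μ C ψ ω := by
  unfold cE
  rw [← sub_div, ← E_sub]
  congr 1
  exact E_congr fun _ => by ring

lemma cE_add (C : Ω → γ) (φ ψ : Ω → ℝ) (ω : Ω) :
    cE μ C (fun ω => φ ω + ψ ω) ω = cE μ C φ ω + cE μ C ψ ω := by
  unfold cE
  rw [← add_div, ← E_add]
  congr 1
  exact E_congr fun _ => by ring

lemma cE_not (h : IsP μ) (C : Ω → γ) (B : Ω → Prop) (ω : Ω) :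
    cE μ C (fun ω => ind (¬ B ω)) ω = 1 - cE μ C (fun ω => ind (B ω)) ω := by
  simp only [ind_not]
  rw [cE_sub, cE_const h]

/-- Conditional entropy of an event. -/
lemma Hn_bin (h : IsP μ) (B : Ω → Prop) (D : Ω → γ) :
    Hn μ (fun ω => (B ω, D ω)) - Hn μ D =
      E μ fun ω => - (ind (B ω) * Real.log (cE μ D (fun ω => ind (B ω)) ω)) -
        ind (¬ B ω) * Real.log (1 - cE μ D (fun ω => ind (B ω)) ω) := by
  unfold Hn
  rw [← E_sub]
  refine E_congr fun ω => ?_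
  have h1 := lw_pos h (fun ω => (B ω, D ω)) ω
  have h2 := lw_pos h D ω
  rw [← cE_not h]
  by_cases hB : B ω
  · have h3 : cE μ D (fun ω => ind (B ω)) ω =
        lw μ (fun ω => (B ω, D ω)) (B ω, D ω) / lw μ D (D ω) := by
      unfold cE
      congr 1
      refine E_congr fun ω' => ?_
      rw [← ind_and]
      exact ind_congr (by simp [hB, and_comm])
    rw [ind_pos hB, ind_neg (not_not.2 hB), h3, Real.log_div h1.ne' h2.ne']; ring
  · have h3 : cE μ D (fun ω => ind (¬ B ω)) ω =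
        lw μ (fun ω => (B ω, D ω)) (B ω, D ω) / lw μ D (D ω) := by
      unfold cE
      congr 1
      refine E_congr fun ω' => ?_
      rw [← ind_and]
      exact ind_congr (by simp [hB, and_comm])
    rw [ind_neg hB, ind_pos hB, h3, Real.log_div h1.ne' h2.ne']; ring

lemma neg_log_le {a b : ℝ} (ha : 0 < a) (hb : 0 < b) :
    - Real.log a ≤ - Real.log b + b / a - 1 := by
  have := Real.log_le_sub_one_of_pos (div_pos hb ha)
  rw [Real.log_div hb.ne' ha.ne'] at this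
  linarith

/-- Gibbs' inequality against the law of a variable on a second weighted space. -/
lemma gibbs (h : IsP μ) (f : Ω → β) {ν : Ω' → ℝ} (hν : ∀ ω', 0 ≤ ν ω') (hν1 : ∑ ω', ν ω' ≤ 1)
    (f' : Ω' → β) {φ : Ω → ℝ} (hφ : ∀ ω, 0 < φ ω) (hφ' : ∀ ω, φ ω ≤ lw ν f' (f ω)) :
    Hn μ f ≤ E μ fun ω => - Real.log (φ ω) := by
  have h1 : E μ (fun ω => lw ν f' (f ω) / lw μ f (f ω)) ≤ 1 := by
    have h2 : ∀ ω, lw ν f' (f ω) / lw μ f (f ω) =
        E ν fun ω' => ind (f ω = f' ω') / lw μ f (f' ω') := by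
      intro ω
      unfold lw
      rw [← E_div_const]
      refine E_congr fun ω' => ?_
      by_cases hc : f' ω' = f ω
      · rw [ind_pos hc, ind_pos hc.symm, hc]
      · rw [ind_neg hc, ind_neg (Ne.symm hc), zero_div, zero_div]
    rw [E_congr h2, E_comm]
    refine le_trans (E_mono' hν (g := fun _ => 1) fun ω' => ?_) (by simpa [E] using hν1)
    rw [E_div_const]
    exact div_self_le_one _
  have h3 := E_mono h (f := fun ω => - Real.log (lw μ f (f ω)))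
    (g := fun ω => - Real.log (φ ω) + lw ν f' (f ω) / lw μ f (f ω) - 1) fun ω => by
      have h4 := neg_log_le (lw_pos h f ω) (hφ ω)
      have h5 := div_le_div_of_nonneg_right (hφ' ω) (lw_nonneg h f (f ω))
      linarith
  rw [E_sub, E_add, E_const h] at h3
  unfold Hn
  linarith

lemma Hn_le_log_card (h : IsP μ) [Fintype β] (f : Ω → β) :
    Hn μ f ≤ Real.log (Fintype.card β) := by
  obtain ⟨ω₀⟩ : Nonempty Ω := by
    by_contra hn
    have := h.one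
    rw [not_nonempty_iff] at hn
    simp at this
  haveI : Nonempty β := ⟨f ω₀⟩
  have hc : (0 : ℝ) < Fintype.card β := by exact_mod_cast Fintype.card_pos
  have := gibbs h f (Ω' := β) (ν := fun _ => (Fintype.card β : ℝ)⁻¹) (fun _ => by positivity)
    (by simp) id (φ := fun _ => (Fintype.card β : ℝ)⁻¹) (fun _ => by positivity) (fun ω => by
      unfold lw E
      simp only [id, mul_comm ((Fintype.card β : ℝ)⁻¹)]
      rw [sum_ind_eq (f ω) fun _ => (Fintype.card β : ℝ)⁻¹])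
  rw [E_const h, Real.log_inv, neg_neg] at this
  exact this

/-- Measure-preserving maps. -/
def MP (μ' : Ω' → ℝ) (μ : Ω → ℝ) (π : Ω' → Ω) : Prop :=
  ∀ φ : Ω → ℝ, E μ' (fun ω' => φ (π ω')) = E μ φ

variable {μ' : Ω' → ℝ} {π : Ω' → Ω}

lemma MP.lw (h : MP μ' μ π) (f : Ω → β) (b : β) : lw μ' (fun ω' => f (π ω')) b = lw μ f b :=
  h fun ω => ind (f ω = b)

lemma MP.Hn (h : MP μ' μ π) (f : Ω → β) : Hn μ' (fun ω' => f (π ω')) = Hn μ f := by
  unfold R55.Hn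
  simp only [h.lw f]
  exact h fun ω => - Real.log (R55.lw μ f (f ω))

lemma MP.cE (h : MP μ' μ π) (C : Ω → γ) (φ : Ω → ℝ) (ω' : Ω') :
    cE μ' (fun ω' => C (π ω')) (fun ω' => φ (π ω')) ω' = cE μ C φ (π ω') := by
  unfold R55.cE
  rw [h.lw C, h fun ω => ind (C ω = C (π ω')) * φ ω]

lemma MP.comp {Ω'' : Type} [Fintype Ω''] {μ'' : Ω'' → ℝ} {π' : Ω'' → Ω'} (h : MP μ' μ π)
    (h' : MP μ'' μ' π') : MP μ'' μ fun ω => π (π' ω) := fun φ => by
  rw [h' fun ω => φ (π ω), h]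

lemma MP.of_equiv (σ : Ω' ≃ Ω) (h : ∀ ω, μ (σ ω) = μ' ω) : MP μ' μ σ := fun φ => by
  unfold E
  rw [← Equiv.sum_comp σ]
  simp only [h]

end Basic

section RP

variable {Ω Ω' : Type} [Fintype Ω] [Fintype Ω'] {β γ δ : Type}

/-- The fibre product of two spaces over a common factor. -/
def RP (f : Ω → β) (f' : Ω' → β) : Type := {x : Ω × Ω' // f' x.2 = f x.1}

noncomputable instance (f : Ω → β) (f' : Ω' → β) : Fintype (RP f f') := by
  classical
  unfold RP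
  infer_instance

/-- The relatively independent weights. -/
noncomputable def rp (μ : Ω → ℝ) (μ' : Ω' → ℝ) (f : Ω → β) (f' : Ω' → β) (x : RP f f') : ℝ :=
  μ x.1.1 * μ' x.1.2 / lw μ f (f x.1.1)

variable {μ : Ω → ℝ} {μ' : Ω' → ℝ} {f : Ω → β} {f' : Ω' → β}

lemma E_rp (Φ : Ω → Ω' → ℝ) :
    E (rp μ μ' f f') (fun x => Φ x.1.1 x.1.2) =
      E μ fun ω => (E μ' fun ω' => ind (f' ω' = f ω) * Φ ω ω') / lw μ f (f ω) := by
  classical
  have h1 : E (rp μ μ' f f') (fun x => Φ x.1.1 x.1.2) =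
      ∑ x ∈ univ.filter (fun x : Ω × Ω' => f' x.2 = f x.1),
        μ x.1 * μ' x.2 / lw μ f (f x.1) * Φ x.1 x.2 := by
    rw [sum_subtype (p := fun x : Ω × Ω' => f' x.2 = f x.1) (F := by infer_instance) _
      (by simp)]
    unfold E
    refine Fintype.sum_equiv (Equiv.refl _) _ _ fun x => rfl
  rw [h1, ← sum_ind_mul, Fintype.sum_prod_type]
  unfold E
  refine sum_congr rfl fun ω _ => ?_
  beta_reduce
  rw [sum_div, mul_sum]
  exact sum_congr rfl fun ω' _ => by ring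

lemma MP_fst (h : IsP μ) (hl : ∀ b, lw μ' f' b = lw μ f b) :
    MP (rp μ μ' f f') μ fun x => x.1.1 := fun φ => by
  rw [E_rp fun ω _ => φ ω]
  refine E_congr fun ω => ?_
  rw [E_mul_const]
  change lw μ' f' (f ω) * _ / _ = _
  rw [hl]
  have := (lw_pos h f ω).ne'
  field_simp

lemma MP_snd (h' : IsP μ') (hl : ∀ b, lw μ' f' b = lw μ f b) :
    MP (rp μ μ' f f') μ' fun x => x.1.2 := fun φ => by
  rw [E_rp fun _ ω' => φ ω']
  have h1 : ∀ ω, (E μ' fun ω' => ind (f' ω' = f ω) * φ ω') / lw μ f (f ω) =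
      E μ' fun ω' => ind (f ω = f' ω') * (φ ω' / lw μ f (f' ω')) := by
    intro ω
    rw [← E_div_const]
    refine E_congr fun ω' => ?_
    by_cases hc : f' ω' = f ω
    · rw [ind_pos hc, ind_pos hc.symm, hc]; ring
    · rw [ind_neg hc, ind_neg (Ne.symm hc)]; ring
  rw [E_congr h1, E_comm]
  refine E_congr fun ω' => ?_
  rw [E_mul_const]
  change lw μ f (f' ω') * _ = _
  rw [← hl]
  have := (lw_pos h' f' ω').ne'
  field_simp

lemma IsP_rp (h : IsP μ) (h' : IsP μ') (hl : ∀ b, lw μ' f' b = lw μ f b) :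
    IsP (rp μ μ' f f') where
  pos x := div_pos (mul_pos (h.pos _) (h'.pos _)) (lw_pos h f _)
  one := by
    have := MP_fst h hl fun _ => 1
    rw [E_const h] at this
    simpa [E] using this

/-- The joint law of a pair of variables that determine the common factor. -/
lemma lw_rp {g : Ω → γ} {g' : Ω' → δ} (hg : Det g f) (hg' : Det g' f') {ω : Ω} {ω' : Ω'}
    (hω : f' ω' = f ω) :
    lw (rp μ μ' f f') (fun x => (g x.1.1, g' x.1.2)) (g ω, g' ω') =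
      lw μ g (g ω) * lw μ' g' (g' ω') / lw μ f (f ω) := by
  unfold lw
  rw [E_rp fun ω₁ ω₂ => ind ((g ω₁, g' ω₂) = (g ω, g' ω'))]
  rw [mul_div_assoc, ← E_mul_const]
  refine E_congr fun ω₁ => ?_
  by_cases hc : g ω₁ = g ω
  · have h1 := hg _ _ hc
    rw [ind_pos hc, one_mul]
    unfold lw
    rw [h1]
    congr 1
    refine E_congr fun ω₂ => ?_
    rw [← ind_and]
    refine ind_congr ⟨fun h => (Prod.ext_iff.1 h.2).2, fun h => ⟨?_, Prod.ext hc h⟩⟩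
    rw [hg' _ _ h, hω]
  · rw [ind_neg hc, zero_mul]
    have : (E μ' fun ω₂ => ind (f' ω₂ = f ω₁) * ind ((g ω₁, g' ω₂) = (g ω, g' ω'))) = 0 := by
      rw [← E_zero (μ := μ')]
      refine E_congr fun ω₂ => ?_
      rw [ind_neg (P := (g ω₁, g' ω₂) = _) fun h => hc (Prod.ext_iff.1 h).1, mul_zero]
    rw [this, zero_div]

/-- Conditional independence in the fibre product. -/
lemma Hn_rp (h : IsP μ) (h' : IsP μ') (hl : ∀ b, lw μ' f' b = lw μ f b) {g : Ω → γ}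
    {g' : Ω' → δ} (hg : Det g f) (hg' : Det g' f') :
    Hn (rp μ μ' f f') (fun x => (g x.1.1, g' x.1.2)) = Hn μ g + Hn μ' g' - Hn μ f := by
  unfold Hn
  rw [← MP_fst h hl fun ω => - Real.log (lw μ g (g ω)),
    ← MP_fst h hl fun ω => - Real.log (lw μ f (f ω)),
    ← MP_snd h' hl fun ω => - Real.log (lw μ' g' (g' ω)), ← E_add, ← E_sub]
  refine E_congr fun x => ?_
  have h1 := (lw_pos h g x.1.1).ne'
  have h2 := (lw_pos h' g' x.1.2).ne'
  have h3 := (lw_pos h f x.1.1).ne'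
  rw [lw_rp hg hg' x.2, Real.log_div (mul_ne_zero h1 h2) h3, Real.log_mul h1 h2]
  ring

/-- Submodularity of entropy. -/
lemma Hn_submod (h : IsP μ) {g : Ω → γ} {g' : Ω → δ} {k : Ω → β} (hg : Det g k)
    (hg' : Det g' k) : Hn μ (fun ω => (g ω, g' ω)) + Hn μ k ≤ Hn μ g + Hn μ g' := by
  have hP := IsP_rp (f := k) (f' := k) h h fun _ => rfl
  have h1 := gibbs h (fun ω => (g ω, g' ω)) hP.nn hP.one.le (fun x => (g x.1.1, g' x.1.2))
    (φ := fun ω => lw μ g (g ω) * lw μ g' (g' ω) / lw μ k (k ω))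
    (fun ω => div_pos (mul_pos (lw_pos h _ _) (lw_pos h _ _)) (lw_pos h _ _))
    (fun ω => (lw_rp hg hg' rfl).ge)
  have h2 : (E μ fun ω => - Real.log (lw μ g (g ω) * lw μ g' (g' ω) / lw μ k (k ω))) =
      Hn μ g + Hn μ g' - Hn μ k := by
    unfold Hn
    rw [← E_add, ← E_sub]
    refine E_congr fun ω => ?_
    have h1 := (lw_pos h g ω).ne'
    have h2 := (lw_pos h g' ω).ne'
    have h3 := (lw_pos h k ω).ne'
    rw [Real.log_div (mul_ne_zero h1 h2) h3, Real.log_mul h1 h2]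
    ring
  linarith

end RP

end Crest.Agent.R55
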