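import Crest.Agent.R55.Defs

/-! Row 55, part K: the key entropy inequality. -/

set_option autoImplicit false
set_option linter.unusedSectionVars false

namespace Crest.Agent.R55

open Finset Crest.Agent.R43

namespace K

variable {Ω : Type} [Fintype Ω] {μ : Ω → ℝ} {β γ δ : Type}

lemma E_mono (h : IsP μ) {f g : Ω → ℝ} (hfg : ∀ ω, f ω ≤ g ω) : E μ f ≤ E μ g :=
  sum_le_sum fun ω _ => mul_le_mul_of_nonneg_left (hfg ω) (h.pos ω).le

lemma E_add (f g : Ω → ℝ) : E μ (fun ω => f ω + g ω) = E μ f + E μ g := by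
  simp only [E, mul_add, sum_add_distrib]

lemma E_sub (f g : Ω → ℝ) : E μ (fun ω => f ω - g ω) = E μ f - E μ g := by
  simp only [E, mul_sub, sum_sub_distrib]

lemma E_mul (c : ℝ) (f : Ω → ℝ) : E μ (fun ω => c * f ω) = c * E μ f := by
  simp only [E, mul_sum, mul_left_comm]

lemma E_one (h : IsP μ) : E μ (fun _ => 1) = 1 := by simp only [E, mul_one, h.one]

lemma E_pos (h : IsP μ) {P : Ω → Prop} {ω : Ω} (hP : P ω) : 0 < E μ fun ω => ind (P ω) :=
  sum_pos' (fun ω _ => mul_nonneg (h.pos ω).le (ind_nonneg _))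
    ⟨ω, mem_univ _, by simp only [ind_pos hP, mul_one]; exact h.pos ω⟩

lemma lw_pos (h : IsP μ) (f : Ω → β) (ω : Ω) : 0 < lw μ f (f ω) := E_pos h (ω := ω) rfl

lemma Hn_congr {f : Ω → β} {g : Ω → γ} (h : ∀ ω ω', f ω = f ω' ↔ g ω = g ω') :
    Hn μ f = Hn μ g := by
  simp only [Hn, lw, h]

lemma cE_det (C : Ω → γ) (φ : Ω → ℝ) : Det C (cE μ C φ) := fun ω ω' h => by
  simp only [cE, h]

lemma tower (h : IsP μ) (C : Ω → γ) (φ : Ω → ℝ) {ψ : Ω → ℝ} (hψ : Det C ψ) :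
    E μ (fun ω => φ ω * ψ ω) = E μ fun ω => cE μ C φ ω * ψ ω := by
  simp only [E, cE, sum_div, sum_mul, mul_sum]
  rw [sum_comm]
  refine sum_congr rfl fun ω _ => ?_
  have h0 := (lw_pos h C ω).ne'
  rw [← mul_div_cancel_right₀ (μ ω * (φ ω * ψ ω)) h0]
  conv_lhs => rw [mul_div_right_comm]; arg 2; rw [lw, E]
  rw [mul_sum]
  refine sum_congr rfl fun ω' _ => ?_
  by_cases e : C ω' = C ω
  · rw [hψ _ _ e, e, ind_pos rfl]; ring
  · rw [ind_neg e, ind_neg (Ne.symm e)]; ring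

lemma cE_nonneg (h : IsP μ) (C : Ω → γ) (P : Ω → Prop) (ω : Ω) :
    0 ≤ cE μ C (fun ω => ind (P ω)) ω :=
  div_nonneg (sum_nonneg fun ω _ => mul_nonneg (h.pos ω).le
    (mul_nonneg (ind_nonneg _) (ind_nonneg _))) (lw_pos h C ω).le

lemma cE_pos (h : IsP μ) (C : Ω → γ) {P : Ω → Prop} {ω : Ω} (hP : P ω) :
    0 < cE μ C (fun ω => ind (P ω)) ω := by
  simp only [cE, ← ind_and]
  exact div_pos (E_pos h (ω := ω) ⟨rfl, hP⟩) (lw_pos h C ω)

lemma cE_not (h : IsP μ) (C : Ω → γ) (P : Ω → Prop) (ω : Ω) :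
    cE μ C (fun ω => ind (¬ P ω)) ω = 1 - cE μ C (fun ω => ind (P ω)) ω := by
  simp only [cE, ind_not, mul_sub, mul_one, E_sub, sub_div]
  exact congrArg (· - _) (div_self (lw_pos h C ω).ne')

lemma Hn_bin (h : IsP μ) (B : Ω → Prop) (D : Ω → δ) :
    Hn μ (fun ω => (B ω, D ω)) - Hn μ D = E μ fun ω =>
      -(ind (B ω) * Real.log (cE μ D (fun ω => ind (B ω)) ω)) -
        ind (¬ B ω) * Real.log (cE μ D (fun ω => ind (¬ B ω)) ω) := by
  rw [Hn, Hn, ← E_sub]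
  congr 1
  ext ω
  have h1 := (lw_pos h (fun ω => (B ω, D ω)) ω).ne'
  have h2 := (lw_pos h D ω).ne'
  rw [neg_sub_neg, ← neg_sub, ← Real.log_div h1 h2]
  by_cases hB : B ω
  · rw [ind_pos hB, ind_neg (not_not.2 hB), one_mul, zero_mul, sub_zero]
    simp only [cE, lw, ← ind_and, Prod.mk.injEq, hB, eq_iff_iff, iff_true, and_comm]
  · rw [ind_neg hB, ind_pos hB, one_mul, zero_mul, neg_zero, zero_sub]
    simp only [cE, lw, ← ind_and, Prod.mk.injEq, hB, eq_iff_iff, iff_false, and_comm]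

lemma log_le {t φ : ℝ} (ht : 0 < t) (hφ : 0 < φ) : -Real.log t ≤ -Real.log φ + φ / t - 1 := by
  have := Real.log_le_sub_one_of_pos (div_pos hφ ht)
  rw [Real.log_div hφ.ne' ht.ne'] at this
  linarith

lemma gibbs (h : IsP μ) {B A : Ω → Prop} {D : Ω → δ} (hA : Det D A) (hBA : ∀ ω, B ω → A ω)
    {φ ψ : Ω → ℝ} (hφ : Det D φ) (hψ : Det D ψ) (φ0 : ∀ ω, 0 ≤ φ ω) (ψ0 : ∀ ω, 0 ≤ ψ ω)
    (φ1 : ∀ ω, B ω → 0 < φ ω) (ψ1 : ∀ ω, ¬ B ω → 0 < ψ ω) :
    Hn μ (fun ω => (B ω, D ω)) - Hn μ D ≤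
      E μ (fun ω => -(ind (B ω) * Real.log (φ ω)) - ind (¬ B ω) * Real.log (ψ ω)) +
        E μ (fun ω => ind (A ω) * φ ω) + E μ ψ - 1 := by
  have a1 : E μ (fun ω => ind (B ω) * (φ ω / cE μ D (fun ω => ind (B ω)) ω)) ≤
      E μ fun ω => ind (A ω) * φ ω := by
    rw [tower h D _ fun ω ω' e => by rw [hφ _ _ e, cE_det D _ _ _ e]]
    refine E_mono h fun ω => ?_
    by_cases hω : A ω
    · rw [ind_pos hω, one_mul, mul_div_assoc', mul_comm, mul_div_assoc]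
      exact mul_le_of_le_one_right (φ0 ω) (div_self_le_one _)
    · have : cE μ D (fun ω => ind (B ω)) ω = 0 := by
        simp only [cE, ← ind_and, E]
        rw [sum_eq_zero fun ω' _ => by
          rw [ind_neg fun e : _ ∧ _ => hω (hA _ _ e.1 ▸ hBA _ e.2), mul_zero], zero_div]
      rw [this, ind_neg hω, zero_mul, zero_mul]
  have a2 : E μ (fun ω => ind (¬ B ω) * (ψ ω / cE μ D (fun ω => ind (¬ B ω)) ω)) ≤ E μ ψ := by
    rw [tower h D _ fun ω ω' e => by rw [hψ _ _ e, cE_det D _ _ _ e]]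
    refine E_mono h fun ω => ?_
    rw [mul_div_assoc', mul_comm, mul_div_assoc]
    exact mul_le_of_le_one_right (ψ0 ω) (div_self_le_one _)
  rw [Hn_bin h]
  refine le_trans ?_ (sub_le_sub_right (add_le_add (add_le_add_right a1 _) a2) 1)
  rw [← E_add, ← E_add, ← E_one h, ← E_sub]
  refine E_mono h fun ω => ?_
  by_cases hB : B ω
  · have := log_le (cE_pos h D hB) (φ1 ω hB)
    rw [ind_pos hB, ind_neg (not_not.2 hB)]
    linarith
  · have := log_le (cE_pos h D (P := fun ω => ¬ B ω) hB) (ψ1 ω hB)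
    rw [ind_neg hB, ind_pos hB]
    linarith

lemma bin (h : IsP μ) {B A : Ω → Prop} {D : Ω → δ} {C : Ω → γ} (hA : Det D A)
    (hBA : ∀ ω, B ω → A ω) (hC : Det D C) :
    3 / 2 * (Hn μ (fun ω => (B ω, D ω)) - Hn μ D) ≤
      1 / 2 * (Hn μ (fun ω => (B ω, C ω)) - Hn μ C) +
        E μ fun ω => ind (A ω) * √(cE μ C (fun ω => ind (A ω)) ω) := by
  have d : ∀ φ, Det D (cE μ C φ) := fun φ ω ω' e => cE_det C φ _ _ (hC _ _ e)
  have rp := fun ω (hB : B ω) => cE_pos h C (hBA ω hB)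
  have g1 := gibbs h hA hBA (φ := fun ω => √(cE μ C (fun ω => ind (A ω)) ω)) (ψ := fun _ => 1)
    (fun ω ω' e => congrArg _ (d _ _ _ e)) (fun _ _ _ => rfl) (fun _ => Real.sqrt_nonneg _)
    (fun _ => zero_le_one) (fun ω hB => Real.sqrt_pos.2 (rp ω hB)) fun _ _ => one_pos
  have g2 := gibbs h hA hBA
    (φ := fun ω => cE μ C (fun ω => ind (B ω)) ω / cE μ C (fun ω => ind (A ω)) ω)
    (ψ := cE μ C fun ω => ind (¬ B ω)) (fun ω ω' e => congrArg₂ _ (d _ _ _ e) (d _ _ _ e)) (d _)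
    (fun _ => div_nonneg (cE_nonneg h C _ _) (cE_nonneg h C _ _)) (cE_nonneg h C _)
    (fun ω hB => div_pos (cE_pos h C hB) (rp ω hB)) fun ω hB => cE_pos h C (P := fun ω => ¬ B ω) hB
  have a1 : E μ (fun ω => ind (A ω) * (cE μ C (fun ω => ind (B ω)) ω /
      cE μ C (fun ω => ind (A ω)) ω)) + E μ (cE μ C fun ω => ind (¬ B ω)) ≤ 1 := by
    rw [tower h C _ fun ω ω' e => by rw [cE_det C _ _ _ e, cE_det C _ _ _ e], ← E_add, ← E_one h]
    refine E_mono h fun ω => ?_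
    rw [cE_not h, mul_div_assoc', mul_comm, mul_div_assoc]
    linarith [mul_le_of_le_one_right (cE_nonneg h C B ω)
      (div_self_le_one (cE μ C (fun ω => ind (A ω)) ω))]
  have a2 : E μ (fun ω => -(ind (B ω) * Real.log √(cE μ C (fun ω => ind (A ω)) ω)) -
      ind (¬ B ω) * Real.log 1) + 1 / 2 * E μ (fun ω => -(ind (B ω) * Real.log
        (cE μ C (fun ω => ind (B ω)) ω / cE μ C (fun ω => ind (A ω)) ω)) -
        ind (¬ B ω) * Real.log (cE μ C (fun ω => ind (¬ B ω)) ω)) =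
      1 / 2 * (Hn μ (fun ω => (B ω, C ω)) - Hn μ C) := by
    rw [Hn_bin h, ← E_mul, ← E_mul, ← E_add]
    congr 1
    ext ω
    rw [Real.log_sqrt (cE_nonneg h C _ _), Real.log_one]
    by_cases hB : B ω
    · rw [Real.log_div (cE_pos h C hB).ne' (rp ω hB).ne']; ring
    · rw [ind_neg hB]; ring
  rw [E_one h] at g1
  linarith

lemma refine (h : IsP μ) (A : Ω → Prop) {D : Ω → δ} {C : Ω → γ} (hC : Det D C) :
    E μ (fun ω => ind (A ω) * √(cE μ C (fun ω => ind (A ω)) ω)) ≤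
      E μ fun ω => ind (A ω) * √(cE μ D (fun ω => ind (A ω)) ω) := by
  have e1 := tower h C (fun ω => ind (A ω)) (ψ := fun ω => √(cE μ C (fun ω => ind (A ω)) ω))
    fun ω ω' e => congrArg _ (cE_det C _ _ _ e)
  have e2 := tower h D (fun ω => ind (A ω)) (ψ := fun ω => √(cE μ C (fun ω => ind (A ω)) ω))
    fun ω ω' e => congrArg _ (cE_det C _ _ _ (hC _ _ e))
  have e3 := tower h D (fun ω => ind (A ω)) (ψ := fun ω => √(cE μ D (fun ω => ind (A ω)) ω))
    fun ω ω' e => congrArg _ (cE_det D _ _ _ e)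
  have := E_mono h (f := fun ω => 3 * (cE μ D (fun ω => ind (A ω)) ω *
      √(cE μ C (fun ω => ind (A ω)) ω)))
    (g := fun ω => 2 * (cE μ D (fun ω => ind (A ω)) ω * √(cE μ D (fun ω => ind (A ω)) ω)) +
      cE μ C (fun ω => ind (A ω)) ω * √(cE μ C (fun ω => ind (A ω)) ω)) fun ω => by
    have h1 := Real.mul_self_sqrt (cE_nonneg h C A ω)
    have h2 := Real.mul_self_sqrt (cE_nonneg h D A ω)
    have h3 := Real.sqrt_nonneg (cE μ C (fun ω => ind (A ω)) ω)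
    have h4 := Real.sqrt_nonneg (cE μ D (fun ω => ind (A ω)) ω)
    generalize √(cE μ C (fun ω => ind (A ω)) ω) = t at *
    generalize √(cE μ D (fun ω => ind (A ω)) ω) = y at *
    rw [← h1, ← h2]
    nlinarith [mul_nonneg (sq_nonneg (y - t)) (add_nonneg (add_nonneg h4 h4) h3)]
  rw [E_add, E_mul, E_mul] at this
  linarith

end K

open K in
theorem key : KeyStmt := by
  intro Ω X β γ _ _ _ μ h W C Z U hW hZ
  suffices H : ∀ S : Finset X,
      3 / 2 * (Hn μ (fun ω => (Z ω ∩ S, W ω, C ω)) - Hn μ (fun ω => (W ω, C ω))) ≤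
        1 / 2 * (Hn μ (fun ω => (Z ω ∩ S, C ω)) - Hn μ C) + ∑ x ∈ S, E μ fun ω => ind (x ∈ U ω) *
          √(cE μ (fun ω => (Z ω, C ω)) (fun ω => ind (x ∈ U ω)) ω) by
    simpa only [inter_univ] using H univ
  intro S
  induction S using Finset.induction_on with
  | empty =>
    rw [Hn_congr (f := fun ω => (Z ω ∩ ∅, W ω, C ω)) (g := fun ω => (W ω, C ω)) (by simp),
      Hn_congr (f := fun ω => (Z ω ∩ ∅, C ω)) (g := C) (by simp)]
    simp
  | insert x S hx ih =>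
    have e : ∀ A B : Finset X, A ∩ insert x S = B ∩ insert x S ↔
        (x ∈ A ↔ x ∈ B) ∧ A ∩ S = B ∩ S := fun A B => by
      simp only [Finset.ext_iff, mem_inter, mem_insert, and_congr_left_iff, or_imp, forall_and,
        forall_eq]
    have b := bin h (B := fun ω => x ∈ Z ω) (A := fun ω => x ∈ U ω)
      (D := fun ω => (Z ω ∩ S, W ω, C ω)) (C := fun ω => (Z ω ∩ S, C ω))
      (fun ω ω' e => congrArg (x ∈ ·) (hW _ _ (congrArg (·.2.1) e))) (fun ω hx => hZ ω hx)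
      fun ω ω' e => by simp only [Prod.mk.injEq] at e ⊢; exact ⟨e.1, e.2.2⟩
    have r := refine h (fun ω => x ∈ U ω) (D := fun ω => (Z ω, C ω))
      (C := fun ω => (Z ω ∩ S, C ω)) fun ω ω' e => by
        simp only [Prod.mk.injEq] at e ⊢; exact ⟨by rw [e.1], e.2⟩
    rw [sum_insert hx, Hn_congr (f := fun ω => (Z ω ∩ insert x S, W ω, C ω))
      (g := fun ω => (x ∈ Z ω, Z ω ∩ S, W ω, C ω)) (by simp [e, and_assoc]),
      Hn_congr (f := fun ω => (Z ω ∩ insert x S, C ω))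
      (g := fun ω => (x ∈ Z ω, Z ω ∩ S, C ω)) (by simp [e, and_assoc])]
    linarith

end Crest.Agent.R55
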