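import Crest.Agent.R55.Defs

/-! Row 55, part P: the fragment argument of Park and Pham for spread families. -/

set_option autoImplicit false
set_option linter.unusedSectionVars false

namespace Crest.Agent.R55

open Finset Crest.Agent.R43

namespace PP

variable {X : Type} [Fintype X] [DecidableEq X]

open Classical in
/-- one coin -/
noncomputable def bi (ρ : ℝ) (p : Prop) : ℝ := if p then ρ else 1 - ρ

/-- weight of a random set of density `ρ` -/
noncomputable def wt (ρ : ℝ) (V : Finset X) : ℝ := ∏ x, bi ρ (x ∈ V)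

lemma sum_prod (F : X → Prop → ℝ) :
    ∑ V : Finset X, ∏ x, F x (x ∈ V) = ∏ x, (F x True + F x False) := by
  rw [Fintype.prod_add]
  refine sum_congr rfl fun V _ => ?_
  rw [← prod_mul_prod_compl V]
  congr 1 <;> exact prod_congr rfl fun x hx => by simp_all

lemma sum_wt (ρ : ℝ) : ∑ V : Finset X, wt ρ V = 1 :=
  (sum_prod fun (_ : X) p => bi ρ p).trans (by simp [bi])

lemma wt_nonneg {ρ : ℝ} (h0 : 0 ≤ ρ) (h1 : ρ ≤ 1) (V : Finset X) : 0 ≤ wt ρ V :=
  prod_nonneg fun _ _ => by unfold bi; split_ifs <;> linarith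

lemma wt_union (a b : ℝ) (f : Finset X → ℝ) :
    ∑ V, wt a V * ∑ V', wt b V' * f (V ∪ V') = ∑ Y, wt (1 - (1 - a) * (1 - b)) Y * f Y := by
  have key : ∀ Y : Finset X, wt (1 - (1 - a) * (1 - b)) Y =
      ∑ V, ∑ V', wt a V * wt b V' * ind (Y = V ∪ V') := fun Y => by
    have e : ∀ V V' : Finset X, wt a V * wt b V' * ind (Y = V ∪ V') = ∏ x,
        bi a (x ∈ V) * bi b (x ∈ V') * ind (x ∈ Y ↔ x ∈ V ∨ x ∈ V') := fun V V' => by
      rw [prod_mul_distrib, prod_mul_distrib, wt, wt]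
      congr 1
      by_cases h : Y = V ∪ V'
      · rw [ind_pos h, prod_eq_one fun x _ => ind_pos (by simp [h])]
      · obtain ⟨x, hx⟩ := not_forall.1 fun h' => h (Finset.ext h')
        rw [ind_neg h, prod_eq_zero (mem_univ x) (ind_neg (by simpa using hx))]
    simp only [e]
    rw [sum_congr rfl fun V _ => sum_prod fun x p => bi a (x ∈ V) * bi b p * ind (x ∈ Y ↔ x ∈ V ∨ p),
      sum_prod fun x p => bi a p * bi b True * ind (x ∈ Y ↔ p ∨ True) +
        bi a p * bi b False * ind (x ∈ Y ↔ p ∨ False)]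
    refine prod_congr rfl fun x _ => ?_
    by_cases h : x ∈ Y <;> simp [h, ind, bi] <;> ring
  simp only [key, sum_mul, mul_sum]
  rw [sum_comm (s := (univ : Finset (Finset X))) (f := fun Y V => ∑ V', _ * ind (Y = V ∪ V') * f Y)]
  refine sum_congr rfl fun V _ => ?_
  rw [sum_comm]
  refine sum_congr rfl fun V' _ => ?_
  simp only [mul_assoc, ← mul_sum, sum_ind_eq]

lemma wt_shift {ρ : ℝ} (h0 : 0 ≤ ρ) (h1 : ρ ≤ 1) (V T : Finset X) :
    wt ρ V * ρ ^ T.card ≤ wt ρ (V ∪ T) := by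
  rw [← prod_const, ← Fintype.prod_ite_mem, wt, ← prod_mul_distrib]
  refine prod_le_prod (fun x _ => by unfold bi; split_ifs <;> nlinarith) fun x _ => ?_
  by_cases h : x ∈ V <;> by_cases h' : x ∈ T <;> simp [h, h', bi] <;> nlinarith

/-- minimal fragments -/
def Frag (H : Finset (Finset X)) (V T : Finset X) : Prop :=
  (∃ S ∈ H, T = S \ V) ∧ ∀ S ∈ H, S ⊆ V ∪ T → T.card ≤ (S \ V).card

lemma ex_frag {H : Finset (Finset X)} (V : Finset X) {S : Finset X} (hS : S ∈ H) :
    ∃ T ⊆ S, Frag H V T := by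
  obtain ⟨S', h1, h2⟩ := exists_min_image (H.filter (· ⊆ V ∪ S)) (fun S' => (S' \ V).card)
    ⟨S, by simp [hS]⟩
  rw [mem_filter] at h1
  have h3 : S' \ V ⊆ S := by grind
  exact ⟨_, h3, ⟨S', h1.1, rfl⟩, fun S'' h h' => h2 _ (mem_filter.2 ⟨h, by grind⟩)⟩

lemma big_cost {H : Finset (Finset X)} {m : ℕ} (hH : ∀ S ∈ H, S.card ≤ 2 * m) {q : ℝ} (hq : 0 ≤ q)
    (h1 : 64 * q ≤ 1) : ∑ V, wt (64 * q) V * ∑ T, ind (Frag H V T ∧ m ≤ T.card) * q ^ T.card ≤
      (1 / 16) ^ m := by
  classical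
  have h0 : 0 ≤ 64 * q := by positivity
  have : ∀ Y : Finset X, ∃ S : Finset X, S.card ≤ 2 * m ∧ ((∃ S ∈ H, S ⊆ Y) → S ∈ H ∧ S ⊆ Y) :=
    fun Y => by
      by_cases h : ∃ S ∈ H, S ⊆ Y
      · obtain ⟨S, h1, h2⟩ := h
        exact ⟨S, hH S h1, fun _ => ⟨h1, h2⟩⟩
      · exact ⟨∅, by simp, fun h' => (h h').elim⟩
  choose χ c1 c2 using this
  calc _ ≤ ∑ T, ∑ V, ind (Frag H V T) * (wt (64 * q) (V ∪ T) * (1 / 64) ^ m) := by
        rw [sum_comm]
        refine sum_le_sum fun V _ => ?_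
        rw [mul_sum]
        refine sum_le_sum fun T _ => ?_
        have w := wt_nonneg h0 h1 (V ∪ T)
        by_cases h : Frag H V T ∧ m ≤ T.card
        · rw [ind_pos h, ind_pos h.1, one_mul, one_mul, show q ^ T.card =
            (64 * q) ^ T.card * (1 / 64) ^ T.card by rw [← mul_pow]; congr 1; ring, ← mul_assoc]
          exact mul_le_mul (wt_shift h0 h1 V T) (pow_le_pow_of_le_one (by norm_num) (by norm_num)
            h.2) (by positivity) w
        · rw [ind_neg h, zero_mul, mul_zero]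
          exact mul_nonneg (ind_nonneg _) (by positivity)
    _ ≤ ∑ T, ∑ Y, ind (T ⊆ χ Y) * (wt (64 * q) Y * (1 / 64) ^ m) := by
        refine sum_le_sum fun T _ => ?_
        rw [sum_ind_mul, sum_ind_mul, ← sum_image (g := fun V => V ∪ T)
          (f := fun Y => wt (64 * q) Y * (1 / 64) ^ m)]
        · refine sum_le_sum_of_subset_of_nonneg (fun Y hY => ?_) fun Y _ _ =>
            mul_nonneg (wt_nonneg h0 h1 Y) (by positivity)
          obtain ⟨V, hV, rfl⟩ := mem_image.1 hY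
          obtain ⟨⟨S, s1, s2⟩, s3⟩ := (mem_filter.1 hV).2
          obtain ⟨c3, c4⟩ := c2 (V ∪ T) ⟨S, s1, by grind⟩
          have := eq_of_subset_of_card_le (by grind : χ (V ∪ T) \ V ⊆ T) (s3 _ c3 c4)
          exact mem_filter.2 ⟨mem_univ _, by grind⟩
        · intro V hV V' hV' e
          obtain ⟨S, -, s2⟩ := (mem_filter.1 hV).2.1
          obtain ⟨S', -, s2'⟩ := (mem_filter.1 hV').2.1
          ext x
          have := Finset.ext_iff.1 e x
          have := Finset.ext_iff.1 s2 x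
          have := Finset.ext_iff.1 s2' x
          grind
    _ ≤ ∑ Y : Finset X, wt (64 * q) Y * (1 / 16) ^ m := by
        rw [sum_comm]
        refine sum_le_sum fun Y _ => ?_
        rw [← sum_mul, sum_ind, mul_left_comm]
        refine mul_le_mul_of_nonneg_left ?_ (wt_nonneg h0 h1 Y)
        rw [show univ.filter (· ⊆ χ Y) = (χ Y).powerset by ext; simp, card_powerset,
          show (1 / 16 : ℝ) ^ m = 2 ^ (2 * m) * (1 / 64) ^ m by rw [pow_mul, ← mul_pow]; norm_num]
        push_cast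
        exact mul_le_mul_of_nonneg_right (pow_le_pow_right₀ one_le_two (c1 Y)) (by positivity)
    _ = _ := by rw [← sum_mul, sum_wt, one_mul]

lemma claim {q : ℝ} (hq : 0 ≤ q) (k : ℕ) : ∀ ρ : ℝ, 64 * q * k ≤ ρ → ρ < 1 →
    ∀ (H : Finset (Finset X)) (c : ℝ), (∀ S ∈ H, S.card < 2 ^ k) →
      (∀ C : Finset X → Prop, (∀ S ∈ H, ∃ T ⊆ S, C T) → c ≤ ∑ T, ind (C T) * q ^ T.card) →
      c ≤ ∑ V, wt ρ V * ind (∃ S ∈ H, S ⊆ V) + (1 - (1 / 2) ^ k) / 2 := by
  classical
  induction k with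
  | zero =>
    intro ρ _ _ H c hH hc
    have e : ∀ S ∈ H, S = ∅ := fun S h => by simpa using hH S h
    by_cases h : ∅ ∈ H
    · have := hc (· = ∅) fun S _ => ⟨∅, empty_subset _, rfl⟩
      rw [sum_ind_eq] at this
      simpa [fun V : Finset X => ind_pos (⟨∅, h, empty_subset V⟩ : ∃ S ∈ H, S ⊆ V), sum_wt] using this
    · have := hc (fun _ => False) fun S hS => (h (e S hS ▸ hS)).elim
      simpa [fun V : Finset X => ind_neg (fun ⟨S, h1, _⟩ => h (e S h1 ▸ h1) : ¬ ∃ S ∈ H, S ⊆ V),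
        ind_neg] using this
  | succ k ih =>
    intro ρ h1 h2 H c hH hc
    push_cast at h1
    have hk : 0 ≤ 64 * q * k := by positivity
    have ha : 64 * q < 1 := by linarith
    have ha' : 0 < 1 - 64 * q := by linarith
    set b := (ρ - 64 * q) / (1 - 64 * q) with hb
    have b1 : 64 * q * k ≤ b := by rw [hb, le_div_iff₀ ha']; nlinarith
    have b2 : b < 1 := by rw [hb, div_lt_one ha']; linarith
    have b3 : 1 - (1 - 64 * q) * (1 - b) = ρ := by rw [hb]; field_simp; ring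
    have step : ∀ V : Finset X, c - ∑ T, ind (Frag H V T ∧ 2 ^ k ≤ T.card) * q ^ T.card ≤
        ∑ V', wt b V' * ind (∃ S ∈ H, S ⊆ V ∪ V') + (1 - (1 / 2) ^ k) / 2 := fun V => by
      refine (ih b b1 b2 (univ.filter fun T => Frag H V T ∧ T.card < 2 ^ k) _
        (fun S h => (mem_filter.1 h).2.2) fun C hC => ?_).trans ?_
      · rw [sub_le_iff_le_add, ← sum_add_distrib]
        refine (hc (fun T => C T ∨ (Frag H V T ∧ 2 ^ k ≤ T.card)) fun S hS => ?_).trans
          (sum_le_sum fun T _ => ?_)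
        · obtain ⟨T, t1, t2⟩ := ex_frag V hS
          by_cases h : T.card < 2 ^ k
          · obtain ⟨T', t3, t4⟩ := hC T (mem_filter.2 ⟨mem_univ _, t2, h⟩)
            exact ⟨T', t3.trans t1, Or.inl t4⟩
          · exact ⟨T, t1, Or.inr ⟨t2, not_lt.1 h⟩⟩
        · rw [← add_mul]
          exact mul_le_mul_of_nonneg_right (ind_or_le _ _) (by positivity)
      · refine add_le_add_left (sum_le_sum fun V' _ => mul_le_mul_of_nonneg_left (ind_mono ?_)
          (wt_nonneg (hk.trans b1) b2.le _)) _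
        rintro ⟨T, t1, t2⟩
        obtain ⟨S, s1, s2⟩ := (mem_filter.1 t1).2.1.1
        exact ⟨S, s1, by grind⟩
    have h3 := sum_le_sum fun V (_ : V ∈ univ) =>
      mul_le_mul_of_nonneg_left (step V) (wt_nonneg (by positivity) ha.le V)
    have h4 := big_cost (m := 2 ^ k) (fun S h => by have := hH S h; omega) hq ha.le
    have h5 : (1 / 16 : ℝ) ^ 2 ^ k ≤ (1 / 2) ^ k / 4 := by
      refine (pow_le_pow_of_le_one (by norm_num) (by norm_num) k.lt_two_pow_self).trans ?_
      rw [pow_succ]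
      have := pow_le_pow_left₀ (by norm_num : (0 : ℝ) ≤ 1 / 16) (by norm_num : _ ≤ (1 / 2 : ℝ)) k
      have : (0 : ℝ) ≤ (1 / 2) ^ k := by positivity
      linarith
    simp only [mul_sub _ c, mul_add, sum_sub_distrib, sum_add_distrib, ← sum_mul, sum_wt, one_mul,
      wt_union _ _ fun Y => ind (∃ S ∈ H, S ⊆ Y), b3] at h3
    rw [pow_succ]
    linarith

end PP

open PP in
theorem pp : PPStmt := by
  intro X ι _ _ _ _ S h q h1 hS hq hs
  classical
  have e : ∀ ρ : ℝ, Crest.FinProb.bernoulliProb ρ {ω : X → Bool | ∃ i, ∀ x ∈ S i, ω x = true} =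
      ∑ V, wt ρ V * ind (∃ T ∈ univ.image S, T ⊆ V) := fun ρ => by
    rw [Crest.FinProb.bernoulliProb, sum_filter]
    refine sum_nbij' (fun ω => univ.filter (ω · = true)) (fun V x => decide (x ∈ V)) (by simp)
      (by simp) (fun ω _ => by ext; simp) (fun V _ => by ext; simp) fun ω _ => ?_
    simp [Crest.FinProb.bernoulliWeight, wt, bi, ind, subset_iff]
  rw [e]
  have hl : ((Nat.log 2 h + 1 : ℕ) : ℝ) ≤ 1 + Real.logb 2 h := by
    have := Real.natLog_le_logb h 2
    push_cast at this ⊢; linarith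
  rcases le_or_gt 1 (2 ^ 20 * q * (1 + Real.logb 2 (h : ℝ))) with h2 | h2
  · rw [min_eq_left h2]
    refine le_trans ?_ (single_le_sum (fun V _ => mul_nonneg (wt_nonneg zero_le_one le_rfl V)
      (ind_nonneg _)) (mem_univ univ))
    rw [ind_pos ⟨_, mem_image_of_mem S (mem_univ (Classical.arbitrary ι)), subset_univ _⟩]
    norm_num [wt, bi]
  rw [min_eq_right h2.le]
  have h3 := claim hq (Nat.log 2 h + 1) _ (mul_le_mul (by linarith) hl (by positivity)
    (by positivity)) h2 (univ.image S) 1 (fun T hT => by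
      obtain ⟨i, -, rfl⟩ := mem_image.1 hT
      exact (hS i).trans_lt (Nat.lt_pow_succ_log_self one_lt_two h)) fun C hC => by
    have hN : (0 : ℝ) < Fintype.card ι := by exact_mod_cast Fintype.card_pos
    refine le_of_mul_le_mul_right ?_ hN
    calc 1 * (Fintype.card ι : ℝ) = ∑ _i : ι, 1 := by simp
      _ ≤ ∑ i, ∑ T, ind (C T) * ind (T ⊆ S i) := sum_le_sum fun i _ => by
          obtain ⟨T, t1, t2⟩ := hC _ (mem_image_of_mem S (mem_univ i))
          refine le_trans ?_ (single_le_sum (fun _ _ => mul_nonneg (ind_nonneg _) (ind_nonneg _))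
            (mem_univ T))
          rw [ind_pos t1, ind_pos t2, one_mul]
      _ ≤ _ := by
          rw [sum_comm, sum_mul]
          refine sum_le_sum fun T _ => ?_
          rw [← mul_sum, sum_ind, mul_assoc]
          exact mul_le_mul_of_nonneg_left (hs T) (ind_nonneg _)
  have : (0 : ℝ) ≤ (1 / 2) ^ (Nat.log 2 h + 1) := by positivity
  linarith

end Crest.Agent.R55
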