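import Crest.Agent.R55.Core

/-!
Row 55: the initial state and the spread theorem.
-/

set_option autoImplicit false
set_option linter.unusedSectionVars false

namespace Crest.Agent.R55

open Finset Crest.Agent.R43
open scoped Pointwise

variable {G X : Type} [Group G] [Fintype G] [Fintype X] [DecidableEq X] [MulAction G X]

/-- Number of translates of `H` that contain `I`. -/
def cnt (G : Type) [Group G] [Fintype G] [MulAction G X] (H I : Finset X) : ℕ :=
  (univ.filter fun g : G => I ⊆ g • H).card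

lemma card_K (H I : Finset X) : Fintype.card {k : G // I ⊆ k • H} = cnt G H I :=
  Fintype.card_subtype _

/-- The initial state. -/
noncomputable def init (H I : Finset X) (lam : ℝ) (hI : 0 < cnt G H I)
    (hs : ∀ T : Finset X, (cnt G H T : ℝ) ≤ Real.exp (-(lam * T.card)) * Fintype.card G) :
    St G X H lam where
  Ω := G × {k : G // I ⊆ k • H}
  β := G
  γ := Unit
  μ _ := ((Fintype.card G : ℝ) * cnt G H I)⁻¹
  A ω := ω.1 * ω.2.1
  W ω := ω.1
  P _ := ()
  U ω := ω.1 • I
  prob := by
    have h1 : (0 : ℝ) < Fintype.card G := by exact_mod_cast Fintype.card_pos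
    have h2 : (0 : ℝ) < cnt G H I := by exact_mod_cast hI
    refine ⟨fun _ => by positivity, ?_⟩
    rw [sum_const, card_univ, Fintype.card_prod, card_K, nsmul_eq_mul]
    push_cast
    field_simp
  spread T := by
    have h1 : (0 : ℝ) < Fintype.card G := by exact_mod_cast Fintype.card_pos
    have h2 : (0 : ℝ) < cnt G H I := by exact_mod_cast hI
    unfold E
    rw [← mul_sum, Fintype.sum_prod_type_right]
    have h3 : ∀ k : {k : G // I ⊆ k • H}, ∑ g : G, ind (T ⊆ (g * k.1) • H) = cnt G H T := by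
      intro k
      rw [cnt, ← sum_ind]
      exact Fintype.sum_equiv (Equiv.mulRight k.1) _ _ fun _ => rfl
    simp only [h3]
    rw [sum_const, card_univ, card_K, nsmul_eq_mul, inv_mul_le_iff₀ (by positivity)]
    nlinarith [mul_le_mul_of_nonneg_left (hs T) h2.le]
  WU _ _ h := congrArg (· • I) h
  WP _ _ _ := rfl
  sub ω := by
    rw [mul_smul]
    exact smul_finset_subset_smul_finset ω.2.2
  inv g := ⟨(Equiv.mulLeft g).prodCongr (Equiv.refl _), fun _ => rfl,
    fun ω => mul_smul g ω.1 I,
    fun ω ω' => by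
      change g * ω.1 * ω.2.1 = g * ω'.1 * ω'.2.1 ↔ _
      rw [mul_assoc, mul_assoc, mul_right_inj],
    fun ω ω' => mul_right_inj g, fun _ _ => Iff.rfl⟩

lemma init_F (H I : Finset X) (lam κ : ℝ) (hI : 0 < cnt G H I)
    (hs : ∀ T : Finset X, (cnt G H T : ℝ) ≤ Real.exp (-(lam * T.card)) * Fintype.card G)
    (hlam : lam * I.card = Real.log (Fintype.card G) - Real.log (cnt G H I)) :
    κ * I.card / 4 - Real.log 2 / 4 - 8 * I.card ≤ (init H I lam hI hs).F κ := by
  set s := init H I lam hI hs with hsdef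
  have h1 : (0 : ℝ) < Fintype.card G := by exact_mod_cast Fintype.card_pos
  have h2 : (0 : ℝ) < cnt G H I := by exact_mod_cast hI
  have hu : s.u = I.card := by
    rw [← E_const s.prob (I.card : ℝ)]
    exact E_congr fun ω => congrArg Nat.cast (card_smul_finset _ _)
  have hW : Hn s.μ s.W ≤ Real.log (Fintype.card G) := Hn_le_log_card (β := G) s.prob s.W
  have hA : Hn s.μ s.A ≤ Real.log (Fintype.card G) := Hn_le_log_card s.prob s.A
  have hC : Hn s.μ s.C ≤ Hn s.μ s.A := Hn_mono s.prob fun _ _ h => Prod.ext h rfl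
  have hWA : Real.log (Fintype.card G) + Real.log (cnt G H I) ≤
      Hn s.μ fun ω => (s.W ω, s.A ω) := by
    rw [← Real.log_mul h1.ne' h2.ne', ← E_const s.prob (Real.log _)]
    refine E_mono s.prob fun ω => ?_
    rw [← Real.log_inv]
    refine Real.log_le_log (by positivity) ?_
    rw [le_inv_comm₀ (by positivity) (lw_pos s.prob (fun ω => (s.W ω, s.A ω)) ω)]
    refine le_trans (E_mono s.prob (g := fun ω' => ind (ω' = ω)) fun ω' => ind_mono fun h => ?_) ?_
    · have h3 : ω'.1 = ω.1 := (Prod.ext_iff.1 h).1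
      have h4 : ω'.1 * ω'.2.1 = ω.1 * ω.2.1 := (Prod.ext_iff.1 h).2
      rw [h3, mul_right_inj] at h4
      exact Prod.ext h3 (Subtype.ext h4)
    · unfold E
      simp only [mul_comm (s.μ _)]
      rw [sum_ind_eq ω s.μ]
      exact le_rfl
  have hQ := s.Q_nonneg
  unfold St.F St.e
  rw [hu]
  linarith

theorem spread (key : KeyStmt) : SpreadStmt := by
  intro G X _ _ _ _ _ H p hp hH I
  change (cnt G H I : ℝ) ≤ _
  have h1 : (0 : ℝ) < Fintype.card G := by exact_mod_cast Fintype.card_pos
  have hle : ∀ T, (cnt G H T : ℝ) ≤ Fintype.card G := fun T => by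
    exact_mod_cast card_le_univ _
  rcases I.eq_empty_or_nonempty with rfl | hI
  · simpa using hle ∅
  rcases Nat.eq_zero_or_pos (cnt G H I) with h0 | h0
  · rw [h0, Nat.cast_zero]; positivity
  obtain ⟨J, hJ, hmin⟩ := exists_min_image
    (univ.filter fun T : Finset X => T.Nonempty ∧ 0 < cnt G H T)
    (fun T => (Real.log (Fintype.card G) - Real.log (cnt G H T)) / T.card)
    ⟨I, mem_filter.2 ⟨mem_univ _, hI, h0⟩⟩
  obtain ⟨-, hJ1, hJ2⟩ := mem_filter.1 hJ
  set lam := (Real.log (Fintype.card G) - Real.log (cnt G H J)) / J.card with hlam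
  have hJ3 : (1 : ℝ) ≤ J.card := by exact_mod_cast hJ1.card_pos
  have hs : ∀ T : Finset X, (cnt G H T : ℝ) ≤ Real.exp (-(lam * T.card)) * Fintype.card G := by
    intro T
    rcases T.eq_empty_or_nonempty with rfl | hT
    · simpa using hle ∅
    rcases Nat.eq_zero_or_pos (cnt G H T) with h2 | h2
    · rw [h2, Nat.cast_zero]; positivity
    have h3 := hmin T (mem_filter.2 ⟨mem_univ _, hT, h2⟩)
    have h4 : (0 : ℝ) < T.card := by exact_mod_cast hT.card_pos
    have h5 : (0 : ℝ) < cnt G H T := by exact_mod_cast h2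
    rw [le_div_iff₀ h4] at h3
    rw [← Real.exp_log h5, ← Real.exp_log h1, ← Real.exp_add]
    exact Real.exp_le_exp.2 (by linarith)
  have hκ : - Real.log p - lam ≤ 41 := by
    by_contra hn
    rw [not_le] at hn
    have h2 := init_F H J lam (- Real.log p - lam) hJ2 hs (by
      rw [hlam]; field_simp)
    have h3 := (init H J lam hJ2 hs).F_le_one key (κ := - Real.log p - lam) hp (by linarith)
      (by ring) hH
    have h4 := Real.log_two_lt_d9
    nlinarith [mul_le_mul_of_nonneg_right hn.le (by linarith : (0 : ℝ) ≤ J.card)]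
  refine (hs I).trans (mul_le_mul_of_nonneg_right ?_ h1.le)
  rw [← neg_mul, mul_comm, Real.exp_nat_mul]
  refine pow_le_pow_left₀ (Real.exp_pos _).le ?_ _
  rw [← Real.exp_log hp, ← Real.exp_add]
  exact Real.exp_le_exp.2 (by linarith)

end Crest.Agent.R55
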