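import Crest.Agent.R55.Ent

/-!
Row 55: the two entropy lower bounds, states, and the doubling and pinning constructions.
-/

set_option autoImplicit false
set_option linter.unusedSectionVars false

namespace Crest.Agent.R55

open Finset Crest.Agent.R43
open scoped Pointwise

section Pat

variable {Ω Ω' : Type} [Fintype Ω] [Fintype Ω'] {β γ δ : Type} {μ : Ω → ℝ} {μ' : Ω' → ℝ}

/-- `σ` preserves the partition defined by `f`. -/
def Pat (σ : Ω ≃ Ω) (f : Ω → β) : Prop := ∀ ω ω', f (σ ω) = f (σ ω') ↔ f ω = f ω'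

lemma Pat.pair {σ : Ω ≃ Ω} {f : Ω → β} {g : Ω → γ} (hf : Pat σ f) (hg : Pat σ g) :
    Pat σ fun ω => (f ω, g ω) := fun ω ω' => by
  simp only [Prod.mk.injEq, hf ω ω', hg ω ω']

lemma lw_pat {σ : Ω ≃ Ω} (hμ : ∀ ω, μ (σ ω) = μ ω) {f : Ω → β} (hf : Pat σ f) (ω : Ω) :
    lw μ f (f (σ ω)) = lw μ f (f ω) := by
  rw [← (MP.of_equiv σ hμ).lw f]
  exact E_congr fun ω' => ind_congr (hf ω' ω)

/-- The product of two compatible bijections on the fibre product. -/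
def rpEquiv {f : Ω → β} {f' : Ω' → β} (σ : Ω ≃ Ω) (σ' : Ω' ≃ Ω')
    (h : ∀ ω ω', f' (σ' ω') = f (σ ω) ↔ f' ω' = f ω) : RP f f' ≃ RP f f' :=
  Equiv.subtypeEquiv (σ.prodCongr σ') fun x => (h x.1 x.2).symm

lemma rp_rpEquiv {f : Ω → β} {f' : Ω' → β} {σ : Ω ≃ Ω} {σ' : Ω' ≃ Ω'}
    (h : ∀ ω ω', f' (σ' ω') = f (σ ω) ↔ f' ω' = f ω) (hμ : ∀ ω, μ (σ ω) = μ ω)
    (hμ' : ∀ ω, μ' (σ' ω) = μ' ω) (hf : Pat σ f) (x : RP f f') :
    rp μ μ' f f' (rpEquiv σ σ' h x) = rp μ μ' f f' x := by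
  change μ (σ x.1.1) * μ' (σ' x.1.2) / lw μ f (f (σ x.1.1)) = _
  rw [hμ, hμ', lw_pat hμ hf]
  rfl

/-- The flip of a fibre square. -/
def rpSwap (f : Ω → β) : RP f f ≃ RP f f :=
  Equiv.subtypeEquiv (Equiv.prodComm Ω Ω) fun _ => eq_comm

lemma MP_swap (f : Ω → β) : MP (rp μ μ f f) (rp μ μ f f) (rpSwap f) :=
  MP.of_equiv _ fun x => by
    change μ x.1.2 * μ x.1.1 / lw μ f (f x.1.2) = μ x.1.1 * μ x.1.2 / lw μ f (f x.1.1)
    rw [x.2, mul_comm]

lemma cE_rp (h : IsP μ) (f : Ω → β) (φ ψ : Ω → ℝ) (y : RP f f) :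
    cE (rp μ μ f f) (fun y => f y.1.1) (fun y => φ y.1.1 * ψ y.1.2) y =
      cE μ f φ y.1.1 * cE μ f ψ y.1.1 := by
  unfold cE
  rw [(MP_fst h fun _ => rfl).lw f,
    E_rp fun ω ω' => ind (f ω = f y.1.1) * (φ ω * ψ ω'), div_mul_eq_mul_div, ← E_mul_const]
  congr 1
  refine E_congr fun ω => ?_
  by_cases hc : f ω = f y.1.1
  · rw [hc, ind_pos rfl, one_mul, ← mul_div_assoc, ← E_const_mul]
    congr 1
    exact E_congr fun ω' => by ring
  · rw [ind_neg hc]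
    simp [E_zero]

lemma card_eq_sum_ind {X : Type} [Fintype X] [DecidableEq X] (U : Finset X) :
    (U.card : ℝ) = ∑ x, ind (x ∈ U) := by
  rw [sum_ind]; simp

end Pat

section Bounds

variable {G X : Type} [Group G] [Fintype G] [Fintype X] [DecidableEq X] [MulAction G X]
variable {Ω : Type} [Fintype Ω] {μ : Ω → ℝ} {β : Type}

/-- A variable that determines a subset of a spread set has information about the set. -/
lemma info_ge (h : IsP μ) {H : Finset X} {lam : ℝ} {A : Ω → G}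
    (hs : ∀ T : Finset X, E μ (fun ω => ind (T ⊆ A ω • H)) ≤ Real.exp (-(lam * T.card)))
    (V : Ω → β) (J : Ω → Finset X) (hV : Det V J) (hJ : ∀ ω, J ω ⊆ A ω • H) :
    lam * E μ (fun ω => (J ω).card) ≤ Hn μ V + Hn μ A - Hn μ fun ω => (V ω, A ω) := by
  have h1 := gibbs h (fun ω => (V ω, A ω)) (Ω' := Ω × Ω)
    (ν := fun y => μ y.1 * (μ y.2 * (Real.exp (lam * (J y.1).card) * ind (J y.1 ⊆ A y.2 • H))))
    (fun y => mul_nonneg (h.nn _) (mul_nonneg (h.nn _)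
      (mul_nonneg (Real.exp_pos _).le (ind_nonneg _))))
    (by
      rw [Fintype.sum_prod_type]
      simp only [← mul_sum]
      refine E_le_const h (f := fun ω => E μ fun ω' =>
        Real.exp (lam * (J ω).card) * ind (J ω ⊆ A ω' • H)) fun ω => ?_
      rw [E_const_mul]
      refine (mul_le_mul_of_nonneg_left (hs (J ω)) (Real.exp_pos _).le).trans ?_
      rw [← Real.exp_add]; simp)
    (fun y => (V y.1, A y.2))
    (φ := fun ω => lw μ V (V ω) * (lw μ A (A ω) * Real.exp (lam * (J ω).card)))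
    (fun ω => mul_pos (lw_pos h _ _) (mul_pos (lw_pos h _ _) (Real.exp_pos _)))
    (fun ω => by
      refine le_of_eq ?_
      unfold lw E
      rw [Fintype.sum_prod_type, sum_mul]
      refine sum_congr rfl fun ω₁ _ => ?_
      rw [sum_mul, mul_sum]
      refine sum_congr rfl fun ω₂ _ => ?_
      by_cases h1 : V ω₁ = V ω
      · by_cases h2 : A ω₂ = A ω
        · simp only [h1, h2, hV _ _ h1, ind_pos (hJ ω), ind_pos trivial]; ring
        · simp only [ind_neg h2, Prod.mk.injEq, h2, and_false, ind_neg not_false]; ring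
      · simp only [ind_neg h1, Prod.mk.injEq, h1, false_and, ind_neg not_false]; ring)
  have h2 : (E μ fun ω => - Real.log (lw μ V (V ω) *
      (lw μ A (A ω) * Real.exp (lam * (J ω).card)))) =
      Hn μ V + Hn μ A - lam * E μ fun ω => (J ω).card := by
    unfold Hn
    rw [← E_const_mul, ← E_add, ← E_sub]
    refine E_congr fun ω => ?_
    have h1 := (lw_pos h V ω).ne'
    have h2 := (lw_pos h A ω).ne'
    rw [Real.log_mul h1 (mul_ne_zero h2 (Real.exp_pos _).ne'),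
      Real.log_mul h2 (Real.exp_pos _).ne', Real.log_exp]
    ring
  linarith

/-- An invariant random subset of the orbit has large entropy. -/
lemma ent_ge (h : IsP μ) {H : Finset X} {p : ℝ} (hp : 0 < p)
    (hH : ∀ T ⊆ H, 1 / 2 ≤ ((univ.image fun g : G => g • T).card : ℝ) * p ^ T.card)
    {A : Ω → G} (Z : Ω → Finset X) (hZ : ∀ ω, Z ω ⊆ A ω • H)
    (hinv : ∀ g : G, ∃ σ : Ω ≃ Ω, (∀ ω, μ (σ ω) = μ ω) ∧ ∀ ω, Z (σ ω) = g • Z ω) :
    - Real.log p * E μ (fun ω => (Z ω).card) - Real.log 2 ≤ Hn μ Z := by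
  have h1 : ∀ (g : G) (T : Finset X), lw μ Z (g • T) = lw μ Z T := by
    intro g T
    obtain ⟨σ, h1, h2⟩ := hinv g
    rw [← (MP.of_equiv σ h1).lw Z]
    refine E_congr fun ω => ind_congr ?_
    simp only [h2, smul_left_cancel_iff]
  have h2 : ∀ T : Finset X, ((univ.image fun g : G => g • T).card : ℝ) * lw μ Z T ≤ 1 := by
    intro T
    have h3 : ∑ T' ∈ univ.image fun g : G => g • T, lw μ Z T' =
        ((univ.image fun g : G => g • T).card : ℝ) * lw μ Z T := by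
      rw [← nsmul_eq_mul, ← sum_const]
      refine sum_congr rfl fun T' hT' => ?_
      obtain ⟨g, -, rfl⟩ := mem_image.1 hT'
      exact h1 g T
    rw [← h3]
    unfold lw
    rw [← E_sum]
    refine E_le_const h fun ω => ?_
    refine le_trans (sum_le_sum_of_subset_of_nonneg (subset_univ _) fun _ _ _ => ind_nonneg _) ?_
    have := sum_ind_eq (Z ω) fun _ => (1 : ℝ)
    simp only [mul_one] at this
    rw [← this]
    exact le_of_eq (sum_congr rfl fun T' _ => ind_congr eq_comm)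
  have h3 : ∀ ω, lw μ Z (Z ω) ≤ 2 * p ^ (Z ω).card := by
    intro ω
    have h4 := hH ((A ω)⁻¹ • Z ω) (by
      rw [Finset.smul_finset_subset_iff, inv_inv]; exact hZ ω)
    have h5 := h2 ((A ω)⁻¹ • Z ω)
    rw [h1] at h5
    rw [card_smul_finset] at h4
    have h6 := lw_nonneg h Z (Z ω)
    have h7 : 0 < p ^ (Z ω).card := pow_pos hp _
    nlinarith [mul_le_mul_of_nonneg_right h4 h6, mul_le_mul_of_nonneg_right h5 h7.le]
  unfold Hn
  rw [← E_const_mul, ← E_const h (Real.log 2), ← E_sub]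
  refine E_mono h fun ω => ?_
  have h4 := Real.log_le_log (lw_pos h Z ω) (h3 ω)
  rw [Real.log_mul two_ne_zero (pow_pos hp _).ne', Real.log_pow] at h4
  linarith

end Bounds

/-- A state of the doubling / pinning process. -/
structure St (G X : Type) [Group G] [DecidableEq X] [MulAction G X] (H : Finset X) (lam : ℝ) where
  Ω : Type
  [fin : Fintype Ω]
  β : Type
  γ : Type
  μ : Ω → ℝ
  A : Ω → G
  W : Ω → β
  P : Ω → γ
  U : Ω → Finset X
  prob : IsP μ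
  spread : ∀ T : Finset X, E μ (fun ω => ind (T ⊆ A ω • H)) ≤ Real.exp (-(lam * T.card))
  WU : Det W U
  WP : Det W P
  sub : ∀ ω, U ω ⊆ A ω • H
  inv : ∀ g : G, ∃ σ : Ω ≃ Ω, (∀ ω, μ (σ ω) = μ ω) ∧ (∀ ω, U (σ ω) = g • U ω) ∧
    Pat σ A ∧ Pat σ W ∧ Pat σ P

attribute [instance] St.fin

namespace St

variable {G X : Type} [Group G] [Fintype G] [Fintype X] [DecidableEq X] [MulAction G X]
variable {H : Finset X} {lam : ℝ} (s : St G X H lam)

/-- The pair `(A, P)`. -/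
def C (ω : s.Ω) : G × s.γ := (s.A ω, s.P ω)

lemma A_eq {y : RP s.C s.C} : s.A y.1.2 = s.A y.1.1 := congrArg Prod.fst y.2
lemma P_eq {y : RP s.C s.C} : s.P y.1.2 = s.P y.1.1 := congrArg Prod.snd y.2

/-- The doubled state. -/
noncomputable def dbl : St G X H lam where
  Ω := RP s.C s.C
  β := s.β × s.β
  γ := s.γ
  μ := rp s.μ s.μ s.C s.C
  A y := s.A y.1.1
  W y := (s.W y.1.1, s.W y.1.2)
  P y := s.P y.1.1
  U y := s.U y.1.1 ∪ s.U y.1.2
  prob := IsP_rp s.prob s.prob fun _ => rfl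
  spread T :=
    (MP_fst s.prob (fun _ => rfl) fun ω => ind (T ⊆ s.A ω • H)).trans_le (s.spread T)
  WU y y' h :=
    congrArg₂ (· ∪ ·) (s.WU _ _ (congrArg Prod.fst h)) (s.WU _ _ (congrArg Prod.snd h))
  WP y y' h := s.WP _ _ (congrArg Prod.fst h)
  sub y := union_subset (s.sub _) (by rw [← s.A_eq]; exact s.sub _)
  inv g := by
    obtain ⟨σ, h1, h2, h3, h4, h5⟩ := s.inv g
    have h6 : Pat σ s.C := h3.pair h5
    refine ⟨rpEquiv σ σ fun ω ω' => h6 ω' ω, rp_rpEquiv _ h1 h1 h6, fun y => ?_,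
      fun y y' => h3 y.1.1 y'.1.1, fun y y' => ?_, fun y y' => h5 y.1.1 y'.1.1⟩
    · change s.U (σ y.1.1) ∪ s.U (σ y.1.2) = _
      rw [h2, h2, smul_finset_union]
    · change (s.W (σ y.1.1), s.W (σ y.1.2)) = (s.W (σ y'.1.1), s.W (σ y'.1.2)) ↔ _
      simp only [Prod.mk.injEq, h4 _ _]

/-- The common part of the two copies. -/
def Z (y : RP s.C s.C) : Finset X := s.U y.1.1 ∩ s.U y.1.2

/-- The first copy of `W`. -/
def W1 (y : RP s.C s.C) : s.β := s.W y.1.1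

lemma mp1 : MP s.dbl.μ s.μ fun y => y.1.1 := MP_fst s.prob fun _ => rfl
lemma mp2 : MP s.dbl.μ s.μ fun y => y.1.2 := MP_snd s.prob fun _ => rfl

lemma lw_W1 (b : s.β) : lw (rp s.μ s.μ s.C s.C) s.W1 b = lw s.μ s.W b := s.mp1.lw s.W b

lemma W_eq {x : RP s.W s.W1} : s.W x.1.2.1.1 = s.W x.1.1 := x.2

lemma Z_sub (x : RP s.W s.W1) : s.Z x.1.2 ⊆ s.U x.1.1 := by
  rw [← s.WU _ _ s.W_eq]; exact inter_subset_left

/-- The pinned state. -/
noncomputable def pin : St G X H lam where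
  Ω := RP s.W s.W1
  β := s.β × Finset X
  γ := s.γ × Finset X
  μ := rp s.μ (rp s.μ s.μ s.C s.C) s.W s.W1
  A x := s.A x.1.1
  W x := (s.W x.1.1, s.Z x.1.2)
  P x := (s.P x.1.1, s.Z x.1.2)
  U x := s.U x.1.1
  prob := IsP_rp s.prob s.dbl.prob s.lw_W1
  spread T := (MP_fst s.prob s.lw_W1 fun ω => ind (T ⊆ s.A ω • H)).trans_le (s.spread T)
  WU y y' h := s.WU _ _ (congrArg Prod.fst h)
  WP y y' h := Prod.ext (s.WP _ _ (congrArg Prod.fst h)) (Prod.ext_iff.1 h).2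
  sub y := s.sub _
  inv g := by
    obtain ⟨σ, h1, h2, h3, h4, h5⟩ := s.inv g
    have h6 : Pat σ s.C := h3.pair h5
    have h7 : ∀ y : RP s.C s.C, s.Z (rpEquiv σ σ (fun ω ω' => h6 ω' ω) y) = g • s.Z y := by
      intro y
      change s.U (σ y.1.1) ∩ s.U (σ y.1.2) = _
      rw [h2, h2, ← smul_finset_inter]
      rfl
    refine ⟨rpEquiv σ (rpEquiv σ σ fun ω ω' => h6 ω' ω) fun ω y => h4 y.1.1 ω,
      rp_rpEquiv _ h1 (rp_rpEquiv _ h1 h1 h6) h4, fun x => h2 x.1.1,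
      fun x x' => h3 x.1.1 x'.1.1, fun x x' => ?_, fun x x' => ?_⟩
    · change (s.W (σ x.1.1), s.Z (rpEquiv σ σ _ x.1.2)) =
        (s.W (σ x'.1.1), s.Z (rpEquiv σ σ _ x'.1.2)) ↔ _
      simp only [Prod.mk.injEq, h4 _ _, h7, smul_left_cancel_iff]
    · change (s.P (σ x.1.1), s.Z (rpEquiv σ σ _ x.1.2)) =
        (s.P (σ x'.1.1), s.Z (rpEquiv σ σ _ x'.1.2)) ↔ _
      simp only [Prod.mk.injEq, h5 _ _, h7, smul_left_cancel_iff]

lemma mp3 : MP s.pin.μ s.μ fun x => x.1.1 := MP_fst s.prob s.lw_W1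
lemma mp4 : MP s.pin.μ s.dbl.μ fun x => x.1.2 := MP_snd s.dbl.prob s.lw_W1

end St

end Crest.Agent.R55
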